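import Claimed.Agent.R282.K2.B.Mult
import Claimed.Agent.R282.K2.C.Fin

/-!
# Row 282, K2, package B, part 3: bricks (B3 of `K2/Plan.lean`)

Vertices: trunk `0 → 1 → ... → c`, `c = n - 3`; leaves `n-2`, `n-1`, arrows `c → n-2`, `c → n-1`  (only arrows `i → j`, `i < j`; "oriented").
For every positive root `β : PRD n`: a primitive element `k2bP R n β` (iterated commutator) and a module `k2bBrick k n β : PiMod k n β.dim`.
INTERFACE (used by `B/Main.lean`): `k2bP_prim`, `k2bBrick_isOr`, `k2bBrick_one`, `k2bBrick_diag`, `k2bBrick_off`.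

`δ_N := M.deltaAt R N`.  STRIP RULE (`k2b_strip`): `N` a submodule, `dim N_i = dim (rad_i N)_i + 1`, no socle vector at `i` in `N`  ⇒
   `δ_N (f_i u - u f_i) = δ_(rad_i N) (u)`.
Roots and elements (`Str lo m B = [f_lo, [f_(lo+1), ... [f_(lo+m-1), B]]]`):
  `(false,a,b)`           interval `[a, b-1]`                      `P = Str a (b-1-a) f_(b-1)`                          value `1`
  `(true,a,n-1)`          `[a, n-3] ∪ {n-1}`                        `P = Str a (n-2-a) f_(n-1)`                          value `1`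
  `(true,a,b)`, `b ≤ n-2`  dim 1 on `[a,b-1]`, 2 on `[b,n-3]`, 1, 1    `P = Str b (n-2-b) (Str a (n-3-a) P_T)`,  `P_T = [f_(n-2), [f_(n-3), f_(n-1)]]`   value `-1`

## Leaf L-K2B-S1 (strip calculus, ~250 lines).  Tools: `PiRep.step_iff`, `PiRep.mem_steps`, `PiRep.cnt_cons`, `PiRep.cnt_concat`, `PiRep.deltaAt_wordMon`, `fk_induction`.
* `k2b_steps_top1`: by `step_iff` a step is `update N i L`, `rad ≤ L ≤ N i`, `finrank L + 1 = finrank (N i)`; so `L = rad` (`Submodule.eq_of_le_of_finrank_eq`), and `update N i rad = radAt i N`.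
* `k2b_steps_top0`: `finrank L + 1 = finrank (N i)` and `N i = rad ≤ L ≤ N i` is absurd.  (If `N` is not a submodule there is no step at all.)
* `k2b_cnt_le`: induction on `w`; a nonzero sum has a nonzero term; `Step` contains `N₁ ≤ N`.
* `k2b_right_zero`: reduce to words (`fk_induction` / linearity), `wordMon_append`, `cnt_concat`: every `N₁` with `Step i N₁ ⊥` and `cnt w N N₁ ≠ 0` has `N₁ ≤ N`,
   `finrank (N₁ i) = 1`, so there is `0 ≠ v ∈ N₁ i ≤ N i`; `a i j v ∈ N₁ j = ⊥` for `j ≠ i`, `a i i = 0`: contradiction with `hsoc`.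
* `k2b_strip`: `map_sub`, `deltaAt_fgen_mul`, `k2b_steps_top1`, `Finset.sum_singleton`, `k2b_right_zero`.
* `k2b_cnt_count`: induction on `w` generalizing `N`: a step lowers `finrank (N i)` by one and keeps the others.
## Leaf L-K2B-S2 (thin modules, ~350 lines)
* `IsThin.rad_src`: `radAt v N v = ⨆ j, (N j).map (a j v) = ⊥`: `j ∉ S`: `N j = ⊥`; `j ∈ S`, `j < v`: not adjacent, `M.zero`; `j > v`: `rev`; `j = v`: `a_self`.
* `IsThin.strip`: `isSub_radAt`, `radAt_same/ne`.   `IsThin.left`, `left_zero` (`v ∈ S` not a source: `a j v` is injective on the line `N j`, so `rad = N v`).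
* `k2b_thin_str`: induction on `m` generalizing `lo N`.  Step: `v = lo` is a source (all of `S` is `≥ lo`), its out-neighbour is `lo+1` (if `m ≥ 2`; adjacent because `lo + 2 < n`) or `t`;
   `k2b_strip`; the support of `radAt lo N` is `{lo+1 ≤ i < lo+1+(m-1)} ∪ T` (`Set.ext`, `omega`).
* `k2b_thin_point`: `δ_N (f_t) = δ_N (f_t * 1) = δ_(rad) 1`, `rad` is thin with empty support, so `= ⊥`.
* `k2b_thin_fork`: expand `P_T = f₊ f_c f₋ - f₊ f₋ f_c - f_c f₋ f₊ + f₋ f_c f₊`; words starting with `f₊`, `f₋` give `0` (`left_zero`, `c` is below); `f_c f₋ f₊`: `left` three times.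
## Leaf L-K2B-S3 (fat modules, ~300 lines)
* `IsFat.strip` (`b + 2 < n`): `radAt b N b = (N (b-1)).map (a (b-1) b)` (other `j`: not adjacent / `rev` / `a_self`), of dimension 1 by `inj`; no socle at `b`: `inj` (if `b + 3 < n`) or `gp1` (if `b + 3 = n`);
   the section `e` is unchanged, `e b = a (b-1) b (e (b-1)) ∈ rad`.
* `IsFat.thin`: `b = n - 2`.  Edges `c → leaf`: `N c` is the line through `e c` and `a c leaf (e c) ≠ 0`.
* `k2b_fat_str`: induction on `m = n - 2 - b`.
## Leaf L-K2B-S4 (the explicit bricks, ~350 lines):  `k2bBrick_thin1`, `k2bBrick_thin2`, `k2bBrick_fat` for the family `⊤`.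
   `finrank (⊤ : Submodule k (Fin m → k)) = m` (`finrank_top`, `Module.finrank_fin_fun`), `PRD.dim` by `simp [PRD.dim]; omega`.  `(A.mulVec v) y = ∑ x, A y x * v x`.  Section: `e i = fun _ => 1`.
## Leaf L-K2B-S5 (degrees, ~250 lines): `K2bHom e x` := `x` is in the span of the words of content `e`.  `k2bHom_mul`, `k2bHom_br`, `k2bHom_str`, `k2bP_hom`, `PRD.dim_injective`, `k2b_hom_zero`.
   `PRD.dim_injective`: `a` = the least `i` with `dim i ≠ 0` unless ...; simplest: recover `e_a ± e_b` : `∑ i, dim i • simpleRootD n i` has entries `1` at `a`, `±1` at `b`; or a direct case analysis.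
-/

set_option autoImplicit false

namespace Claimed.Agent.R282

open Module

/-! ## the elements `P_β` -/

section Elements

variable (R : Type) [CommRing R] (n : ℕ)

/-- generators indexed by `ℕ` -/
noncomputable def k2bGen (i : ℕ) : FreeAlgebra R (Fin n) := if h : i < n then fgen R n ⟨i, h⟩ else 0

/-- `Str lo m B = [f_lo, [f_(lo+1), ... [f_(lo+m-1), B]]]` -/
noncomputable def k2bStr : ℕ → ℕ → FreeAlgebra R (Fin n) → FreeAlgebra R (Fin n)
  | _, 0, B => B
  | lo, m + 1, B => k2bGen R n lo * k2bStr (lo + 1) m B - k2bStr (lo + 1) m B * k2bGen R n lo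

/-- the fork element `[f_(n-2), [f_(n-3), f_(n-1)]]` -/
noncomputable def k2bFork : FreeAlgebra R (Fin n) :=
  k2bGen R n (n - 2) * (k2bGen R n (n - 3) * k2bGen R n (n - 1) - k2bGen R n (n - 1) * k2bGen R n (n - 3))
    - (k2bGen R n (n - 3) * k2bGen R n (n - 1) - k2bGen R n (n - 1) * k2bGen R n (n - 3)) * k2bGen R n (n - 2)

/-- the primitive element of a positive root -/
noncomputable def k2bP (β : PRD n) : FreeAlgebra R (Fin n) :=
  if β.1.1 then
    (if (β.1.2.2 : ℕ) + 1 = n then k2bStr R n β.1.2.1 (n - 2 - β.1.2.1) (k2bGen R n (n - 1))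
     else k2bStr R n β.1.2.2 (n - 2 - β.1.2.2) (k2bStr R n β.1.2.1 (n - 3 - β.1.2.1) (k2bFork R n)))
  else k2bStr R n β.1.2.1 (β.1.2.2 - 1 - β.1.2.1) (k2bGen R n (β.1.2.2 - 1))

variable {R n}

theorem k2bGen_prim (i : ℕ) : K2bPrim R n (k2bGen R n i) := by
  unfold k2bGen
  split_ifs with h
  · exact k2b_prim_gen _
  · simp [K2bPrim]

theorem k2bStr_prim (lo m : ℕ) {B : FreeAlgebra R (Fin n)} (hB : K2bPrim R n B) :
    K2bPrim R n (k2bStr R n lo m B) := by
  induction m generalizing lo with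
  | zero => exact hB
  | succ m ih => exact k2b_prim_br (k2bGen_prim lo) (ih (lo + 1))

theorem k2bFork_prim : K2bPrim R n (k2bFork R n) :=
  k2b_prim_br (k2bGen_prim _) (k2b_prim_br (k2bGen_prim _) (k2bGen_prim _))

/-- INTERFACE -/
theorem k2bP_prim (β : PRD n) : K2bPrim R n (k2bP R n β) := by
  unfold k2bP
  split_ifs
  · exact k2bStr_prim _ _ (k2bGen_prim _)
  · exact k2bStr_prim _ _ (k2bStr_prim _ _ k2bFork_prim)
  · exact k2bStr_prim _ _ (k2bGen_prim _)

end Elements

/-! ## L-K2B-S1 : strip calculus -/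

section Strip

variable {k : Type} [Field k] {n : ℕ} {V : Fin n → Type} [∀ i, AddCommGroup (V i)]
  [∀ i, Module k (V i)] [∀ i, Finite (V i)] (M : PiRep k n V) (R : Type) [CommRing R]

theorem k2b_steps_top1 {N : ∀ i, Submodule k (V i)} (hN : M.IsSub N) (i : Fin n)
    (h : finrank k (M.radAt i N i) + 1 = finrank k (N i)) : M.steps i N = {M.radAt i N} := by
  ext K
  rw [PiRep.mem_steps, Finset.mem_singleton, PiRep.step_iff hN]
  constructor
  · rintro ⟨L, rfl, h1, h2, h3⟩
    have : M.radAt i N i = L := Submodule.eq_of_le_of_finrank_eq h1 (by omega)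
    rw [← this, PiRep.radAt_same]; rfl
  · rintro rfl
    exact ⟨M.radAt i N i, by rw [PiRep.radAt_same]; rfl, le_rfl, PiRep.radAt_le hN i i, h⟩

theorem k2b_steps_top0 {N : ∀ i, Submodule k (V i)} (i : Fin n) (h : M.radAt i N i = N i) :
    M.steps i N = ∅ := by
  rw [Finset.eq_empty_iff_forall_notMem]
  intro K hK
  rw [PiRep.mem_steps] at hK
  obtain ⟨L, -, h1, h2, h3⟩ := (PiRep.step_iff hK.1 i K).1 hK
  rw [h] at h1
  have : L = N i := le_antisymm h2 h1
  rw [this] at h3
  omega

theorem k2b_cnt_le {w : List (Fin n)} {N N' : ∀ i, Submodule k (V i)} (h : M.cnt w N N' ≠ 0) :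
    N' ≤ N := by
  induction w generalizing N with
  | nil =>
    by_cases e : N = N'
    · rw [e]
    · exact absurd (PiRep.cnt_nil_ne M e) h
  | cons i w ih =>
    rw [PiRep.cnt_cons] at h
    obtain ⟨N₁, h₁, h₂⟩ := Finset.exists_ne_zero_of_sum_ne_zero h
    exact (ih h₂).trans (M.mem_steps.1 h₁).2.2.1

theorem k2b_right_zero {N : ∀ i, Submodule k (V i)} (i : Fin n)
    (hsoc : ∀ v ∈ N i, (∀ j, M.a i j v = 0) → v = 0) (x : FreeAlgebra R (Fin n)) :
    M.deltaAt R N (x * fgen R n i) = 0 := by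
  classical
  induction x using fk_induction with
  | hw w =>
    rw [← wordMon_singleton, ← wordMon_append, PiRep.deltaAt_wordMon, PiRep.cnt_concat]
    rw [Finset.sum_eq_zero]
    · simp
    intro N₁ h₁
    rw [Finset.mem_filter] at h₁
    obtain ⟨-, hs1, -, -, hs4, hs5⟩ := h₁
    by_contra hne
    have hle := k2b_cnt_le M hne
    have hfr : finrank k (N₁ i) = 1 := by
      have : finrank k ((⊥ : ∀ i, Submodule k (V i)) i) = 0 := by simp
      omega
    have hnb : N₁ i ≠ ⊥ := by
      intro hb; rw [hb] at hfr; simp at hfr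
    obtain ⟨v, hv, hv0⟩ := Submodule.exists_mem_ne_zero_of_ne_bot hnb
    apply hv0
    apply hsoc v (hle i hv)
    intro j
    by_cases hj : j = i
    · subst hj; rw [PiRep.a_self]; rfl
    · have := hs1 i j (Submodule.mem_map_of_mem hv)
      rw [← hs4 j hj] at this
      simpa using this
  | h0 => simp
  | hadd a b ha hb => rw [add_mul, map_add, ha, hb, add_zero]
  | hsmul r a ha => rw [smul_mul_assoc, map_smul, ha, smul_zero]

/-- the STRIP RULE -/
theorem k2b_strip {N : ∀ i, Submodule k (V i)} (hN : M.IsSub N) (i : Fin n)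
    (htop : finrank k (M.radAt i N i) + 1 = finrank k (N i))
    (hsoc : ∀ v ∈ N i, (∀ j, M.a i j v = 0) → v = 0) (u : FreeAlgebra R (Fin n)) :
    M.deltaAt R N (fgen R n i * u - u * fgen R n i) = M.deltaAt R (M.radAt i N) u := by
  rw [map_sub, PiRep.deltaAt_fgen_mul, k2b_steps_top1 M hN i htop, Finset.sum_singleton,
    k2b_right_zero M R i hsoc, sub_zero]

theorem k2b_cnt_count {w : List (Fin n)} {N : ∀ i, Submodule k (V i)} (h : M.cnt w N ⊥ ≠ 0)
    (i : Fin n) : w.count i = finrank k (N i) := by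
  induction w generalizing N with
  | nil =>
    by_cases e : N = ⊥
    · rw [e]; simp
    · exact absurd (PiRep.cnt_nil_ne M e) h
  | cons j w ih =>
    rw [PiRep.cnt_cons] at h
    obtain ⟨N₁, h₁, h₂⟩ := Finset.exists_ne_zero_of_sum_ne_zero h
    obtain ⟨-, -, -, hs4, hs5⟩ := M.mem_steps.1 h₁
    have := ih h₂
    by_cases hij : i = j
    · subst hij
      rw [List.count_cons_self, this, hs5]
    · rw [List.count_cons_of_ne (Ne.symm hij), this, hs4 i hij]

end Strip

/-! ## L-K2B-S2 : thin modules -/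

section Thin

variable {k : Type} [Field k] {n : ℕ} {V : Fin n → Type} [∀ i, AddCommGroup (V i)]
  [∀ i, Module k (V i)]

/-- `N` is a thin oriented submodule with support `S`, all arrows inside `S` are injective -/
structure PiRep.IsThin (M : PiRep k n V) (S : Set (Fin n)) (N : ∀ i, Submodule k (V i)) : Prop where
  sub : M.IsSub N
  dim1 : ∀ i ∈ S, finrank k (N i) = 1
  dim0 : ∀ i ∉ S, N i = ⊥
  rev : ∀ i j, j < i → ∀ v ∈ N i, M.a i j v = 0
  inj : ∀ i ∈ S, ∀ j ∈ S, i < j → adjD n i j → ∀ v ∈ N i, M.a i j v = 0 → v = 0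

variable [∀ i, Finite (V i)] {M : PiRep k n V} (R : Type) [CommRing R]

theorem PiRep.IsThin.rad_src {S : Set (Fin n)} {N : ∀ i, Submodule k (V i)} (h : M.IsThin S N)
    {v : Fin n} (hsrc : ∀ j ∈ S, j < v → ¬ adjD n j v) : M.radAt v N v = ⊥ := by
  rw [PiRep.radAt_same, eq_bot_iff]
  refine iSup_le fun j => ?_
  by_cases hjS : j ∈ S
  · rcases lt_trichotomy j v with hlt | heq | hgt
    · rw [M.zero j v (hsrc j hjS hlt), Submodule.map_zero]
    · subst heq; rw [PiRep.a_self, Submodule.map_zero]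
    · rintro _ ⟨x, hx, rfl⟩
      rw [h.rev j v hgt x hx]; exact zero_mem _
  · rw [h.dim0 j hjS, Submodule.map_bot]

theorem PiRep.IsThin.strip {S : Set (Fin n)} {N : ∀ i, Submodule k (V i)} (h : M.IsThin S N)
    {v : Fin n} (hsrc : ∀ j ∈ S, j < v → ¬ adjD n j v) : M.IsThin (S \ {v}) (M.radAt v N) := by
  have hr := h.rad_src hsrc
  refine ⟨PiRep.isSub_radAt h.sub v, ?_, ?_, ?_, ?_⟩
  · rintro i ⟨hi, hiv⟩
    rw [PiRep.radAt_ne M hiv]; exact h.dim1 i hi
  · intro i hi
    by_cases hiv : i = v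
    · subst hiv; exact hr
    · rw [PiRep.radAt_ne M hiv]; exact h.dim0 i (fun hS => hi ⟨hS, hiv⟩)
  · intro i j hji x hx
    exact h.rev i j hji x (PiRep.radAt_le h.sub v i hx)
  · rintro i ⟨hi, _⟩ j ⟨hj, _⟩ hij hadj x hx
    exact h.inj i hi j hj hij hadj x (PiRep.radAt_le h.sub v i hx)

theorem PiRep.IsThin.left {S : Set (Fin n)} {N : ∀ i, Submodule k (V i)} (h : M.IsThin S N)
    {v : Fin n} (hv : v ∈ S) (hsrc : ∀ j ∈ S, j < v → ¬ adjD n j v) (u : FreeAlgebra R (Fin n)) :
    M.deltaAt R N (fgen R n v * u) = M.deltaAt R (M.radAt v N) u := by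
  rw [PiRep.deltaAt_fgen_mul, k2b_steps_top1 M h.sub v
    (by rw [h.rad_src hsrc, h.dim1 v hv]; simp), Finset.sum_singleton]

theorem PiRep.IsThin.left_zero {S : Set (Fin n)} {N : ∀ i, Submodule k (V i)} (h : M.IsThin S N)
    {v : Fin n} (hv : v ∉ S ∨ ∃ j ∈ S, j < v ∧ adjD n j v) (u : FreeAlgebra R (Fin n)) :
    M.deltaAt R N (fgen R n v * u) = 0 := by
  rw [PiRep.deltaAt_fgen_mul, k2b_steps_top0 M v ?_, Finset.sum_empty]
  by_cases hvS : v ∈ S
  · obtain ⟨j, hj, hjv, hadj⟩ := hv.resolve_left (not_not.2 hvS)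
    apply Submodule.eq_of_le_of_finrank_le (PiRep.radAt_le h.sub v v)
    rw [h.dim1 v hvS]
    by_contra hlt
    have h0 : finrank k (M.radAt v N v) = 0 := by omega
    rw [Submodule.finrank_eq_zero] at h0
    have hle : (N j).map (M.a j v) ≤ M.radAt v N v := by
      rw [PiRep.radAt_same]; exact le_iSup (fun j => (N j).map (M.a j v)) j
    rw [h0, le_bot_iff] at hle
    have hnb : N j ≠ ⊥ := by
      intro hb
      have := h.dim1 j hj
      rw [hb] at this; simp at this
    obtain ⟨x, hx, hx0⟩ := Submodule.exists_mem_ne_zero_of_ne_bot hnb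
    apply hx0
    apply h.inj j hj v hvS hjv hadj x hx
    have : M.a j v x ∈ (N j).map (M.a j v) := Submodule.mem_map_of_mem hx
    rw [hle] at this
    simpa using this
  · apply le_antisymm (PiRep.radAt_le h.sub v v)
    rw [h.dim0 v hvS]; exact bot_le

/-- stripping an interval `[lo, lo+m)` of trunk vertices from a thin module -/
theorem k2b_thin_str (lo m : ℕ) (hm : lo + m + 2 ≤ n) (T : Set (Fin n))
    (hT : ∀ t ∈ T, lo + m ≤ t.val)
    (hadj : 0 < m → ∃ t ∈ T, ∃ v : Fin n, v.val + 1 = lo + m ∧ adjD n v t)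
    (N : ∀ i, Submodule k (V i))
    (h : M.IsThin ({i : Fin n | lo ≤ i.val ∧ i.val < lo + m} ∪ T) N) :
    ∃ N', M.IsThin T N' ∧ ∀ B, M.deltaAt R N (k2bStr R n lo m B) = M.deltaAt R N' B := by
  induction m generalizing lo N with
  | zero =>
    refine ⟨N, ?_, fun B => rfl⟩
    have e : ({i : Fin n | lo ≤ i.val ∧ i.val < lo + 0} ∪ T) = T := by
      ext i
      constructor
      · rintro (⟨h1, h2⟩ | h3)
        · omega
        · exact h3
      · exact Or.inr
    rwa [e] at h
  | succ m ih =>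
    have hlo : lo < n := by omega
    have hvS : (⟨lo, hlo⟩ : Fin n) ∈ ({i : Fin n | lo ≤ i.val ∧ i.val < lo + (m + 1)} ∪ T) :=
      Or.inl ⟨le_rfl, by show lo < lo + (m + 1); omega⟩
    have hsrc : ∀ j ∈ ({i : Fin n | lo ≤ i.val ∧ i.val < lo + (m + 1)} ∪ T),
        j < (⟨lo, hlo⟩ : Fin n) → ¬ adjD n j ⟨lo, hlo⟩ := by
      rintro j (⟨h1, _⟩ | hjT) hjv
      · have : j.val < lo := hjv
        omega
      · have := hT j hjT
        have : j.val < lo := hjv
        omega
    have hstrip := h.strip hsrc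
    have hS' : ({i : Fin n | lo ≤ i.val ∧ i.val < lo + (m + 1)} ∪ T) \ {(⟨lo, hlo⟩ : Fin n)} =
        {i : Fin n | lo + 1 ≤ i.val ∧ i.val < lo + 1 + m} ∪ T := by
      ext i
      constructor
      · rintro ⟨⟨h1, h2⟩ | h3, h4⟩
        · left
          have : i.val ≠ lo := fun e => h4 (Fin.ext e)
          exact ⟨by omega, by omega⟩
        · exact Or.inr h3
      · rintro (⟨h1, h2⟩ | h3)
        · refine ⟨Or.inl ⟨by omega, by omega⟩, ?_⟩
          intro e
          have : i.val = lo := congrArg Fin.val e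
          omega
        · refine ⟨Or.inr h3, ?_⟩
          intro e
          have : i.val = lo := congrArg Fin.val e
          have := hT i h3
          omega
    rw [hS'] at hstrip
    obtain ⟨N', hN', hB⟩ := ih (lo + 1) (by omega) (fun t ht => by have := hT t ht; omega)
      (fun _ => by
        obtain ⟨t, ht, w, hw, ha⟩ := hadj (by omega)
        exact ⟨t, ht, w, by omega, ha⟩) _ hstrip
    refine ⟨N', hN', fun B => ?_⟩
    rw [← hB]
    have hgen : k2bGen R n lo = fgen R n ⟨lo, hlo⟩ := by simp [k2bGen, hlo]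
    show M.deltaAt R N (k2bGen R n lo * k2bStr R n (lo + 1) m B
      - k2bStr R n (lo + 1) m B * k2bGen R n lo) = _
    rw [hgen]
    apply k2b_strip M R h.sub
    · rw [h.rad_src hsrc, h.dim1 _ hvS]; simp
    · obtain ⟨j, hjS, hvj, hadjvj⟩ : ∃ j ∈ ({i : Fin n | lo ≤ i.val ∧ i.val < lo + (m + 1)} ∪ T),
          (⟨lo, hlo⟩ : Fin n) < j ∧ adjD n ⟨lo, hlo⟩ j := by
        rcases Nat.eq_zero_or_pos m with rfl | hmpos
        · obtain ⟨t, ht, w, hw, ha⟩ := hadj (by omega)
          have hwlo : w = ⟨lo, hlo⟩ := Fin.ext (by show w.val = lo; omega)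
          subst hwlo
          refine ⟨t, Or.inr ht, ?_, ha⟩
          have := hT t ht
          show lo < t.val
          omega
        · refine ⟨⟨lo + 1, by omega⟩, Or.inl ⟨by show lo ≤ lo + 1; omega,
            by show lo + 1 < lo + (m + 1); omega⟩, by show lo < lo + 1; omega,
            Or.inl ⟨rfl, by show lo + 1 + 1 < n; omega⟩⟩
      intro x hx hall
      exact h.inj _ hvS j hjS hvj hadjvj x hx (hall j)

theorem k2b_thin_point (t : Fin n) (N : ∀ i, Submodule k (V i)) (h : M.IsThin {t} N) :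
    M.deltaAt R N (fgen R n t) = 1 := by
  have hsrc : ∀ j ∈ ({t} : Set (Fin n)), j < t → ¬ adjD n j t := by
    rintro j rfl hj; exact absurd hj (lt_irrefl _)
  have h1 := h.left R (Set.mem_singleton t) hsrc 1
  rw [mul_one] at h1
  rw [h1]
  have h2 := h.strip hsrc
  have h3 : M.radAt t N = ⊥ := by
    funext i; exact h2.dim0 i (by simp)
  rw [h3, PiRep.deltaAt_one_bot]

theorem k2b_thin_fork (hn : 3 ≤ n) (N : ∀ i, Submodule k (V i))
    (h : M.IsThin {i : Fin n | n ≤ i.val + 3} N) : M.deltaAt R N (k2bFork R n) = -1 := by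
  have hc : n - 3 < n := by omega
  have hp : n - 2 < n := by omega
  have hq : n - 1 < n := by omega
  have gc : k2bGen R n (n - 3) = fgen R n ⟨n - 3, hc⟩ := by simp [k2bGen, hc]
  have gp : k2bGen R n (n - 2) = fgen R n ⟨n - 2, hp⟩ := by simp [k2bGen, hp]
  have gq : k2bGen R n (n - 1) = fgen R n ⟨n - 1, hq⟩ := by simp [k2bGen, hq]
  unfold k2bFork
  rw [gc, gp, gq]
  have e : fgen R n ⟨n - 2, hp⟩ * (fgen R n ⟨n - 3, hc⟩ * fgen R n ⟨n - 1, hq⟩
        - fgen R n ⟨n - 1, hq⟩ * fgen R n ⟨n - 3, hc⟩)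
      - (fgen R n ⟨n - 3, hc⟩ * fgen R n ⟨n - 1, hq⟩
        - fgen R n ⟨n - 1, hq⟩ * fgen R n ⟨n - 3, hc⟩) * fgen R n ⟨n - 2, hp⟩
      = fgen R n ⟨n - 2, hp⟩ * (fgen R n ⟨n - 3, hc⟩ * fgen R n ⟨n - 1, hq⟩
        - fgen R n ⟨n - 1, hq⟩ * fgen R n ⟨n - 3, hc⟩)
      - fgen R n ⟨n - 3, hc⟩ * (fgen R n ⟨n - 1, hq⟩ * fgen R n ⟨n - 2, hp⟩)
      + fgen R n ⟨n - 1, hq⟩ * (fgen R n ⟨n - 3, hc⟩ * fgen R n ⟨n - 2, hp⟩) := by
    noncomm_ring
  have hcS : (⟨n - 3, hc⟩ : Fin n) ∈ {i : Fin n | n ≤ i.val + 3} := by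
    show n ≤ n - 3 + 3; omega
  have hsrc_c : ∀ j ∈ {i : Fin n | n ≤ i.val + 3}, j < (⟨n - 3, hc⟩ : Fin n) →
      ¬ adjD n j ⟨n - 3, hc⟩ := by
    intro j hj hjc
    have h1 : n ≤ j.val + 3 := hj
    have h2 : j.val < n - 3 := hjc
    omega
  rw [e, map_add, map_sub,
    h.left_zero R (v := ⟨n - 2, hp⟩) (Or.inr ⟨⟨n - 3, hc⟩, hcS, by show n - 3 < n - 2; omega,
      Or.inl ⟨by show n - 3 + 1 = n - 2; omega, by show n - 2 + 1 < n; omega⟩⟩),
    h.left_zero R (v := ⟨n - 1, hq⟩) (Or.inr ⟨⟨n - 3, hc⟩, hcS, by show n - 3 < n - 1; omega,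
      Or.inr (Or.inr (Or.inl ⟨by show n - 3 + 3 = n; omega, by show n - 1 + 1 = n; omega⟩))⟩),
    h.left R hcS hsrc_c]
  have h1 := h.strip hsrc_c
  have hqS : (⟨n - 1, hq⟩ : Fin n) ∈ {i : Fin n | n ≤ i.val + 3} \ {(⟨n - 3, hc⟩ : Fin n)} := by
    refine ⟨by show n ≤ n - 1 + 3; omega, ?_⟩
    intro e
    have : n - 1 = n - 3 := congrArg Fin.val e
    omega
  have hsrc_q : ∀ j ∈ {i : Fin n | n ≤ i.val + 3} \ {(⟨n - 3, hc⟩ : Fin n)},
      j < (⟨n - 1, hq⟩ : Fin n) → ¬ adjD n j ⟨n - 1, hq⟩ := by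
    rintro j ⟨hj, hjc⟩ hjq
    have h1 : n ≤ j.val + 3 := hj
    have h2 : j.val < n - 1 := hjq
    have h3 : j.val ≠ n - 3 := fun e => hjc (Fin.ext e)
    unfold adjD
    simp only []
    omega
  rw [h1.left R hqS hsrc_q]
  have h2 := h1.strip hsrc_q
  have hS : ({i : Fin n | n ≤ i.val + 3} \ {(⟨n - 3, hc⟩ : Fin n)}) \ {(⟨n - 1, hq⟩ : Fin n)} =
      {(⟨n - 2, hp⟩ : Fin n)} := by
    ext i
    constructor
    · rintro ⟨⟨h1, h2⟩, h3⟩
      have h1' : n ≤ i.val + 3 := h1
      have h2' : i.val ≠ n - 3 := fun e => h2 (Fin.ext e)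
      have h3' : i.val ≠ n - 1 := fun e => h3 (Fin.ext e)
      have := i.2
      exact Fin.ext (by show i.val = n - 2; omega)
    · rintro rfl
      refine ⟨⟨by show n ≤ n - 2 + 3; omega, ?_⟩, ?_⟩
      · intro e
        have : n - 2 = n - 3 := congrArg Fin.val e
        omega
      · intro e
        have : n - 2 = n - 1 := congrArg Fin.val e
        omega
  rw [hS] at h2
  rw [k2b_thin_point R _ _ h2]
  ring

end Thin

/-! ## L-K2B-S3 : fat modules -/

section Fat

variable {k : Type} [Field k] {n : ℕ} {V : Fin n → Type} [∀ i, AddCommGroup (V i)]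
  [∀ i, Module k (V i)]

/-- dimension `1` on `[a, b)`, `2` on `[b, n-3]`, `1` on the leaves, in general position (`a < b ≤ n - 2`) -/
structure PiRep.IsFat (M : PiRep k n V) (a b : ℕ) (N : ∀ i, Submodule k (V i)) : Prop where
  sub : M.IsSub N
  rev : ∀ i j, j < i → ∀ v ∈ N i, M.a i j v = 0
  dim0 : ∀ i : Fin n, i.val < a → N i = ⊥
  dim1 : ∀ i : Fin n, a ≤ i.val → i.val < b → finrank k (N i) = 1
  dim2 : ∀ i : Fin n, b ≤ i.val → i.val + 2 < n → finrank k (N i) = 2
  dimL : ∀ i : Fin n, n ≤ i.val + 2 → finrank k (N i) = 1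
  inj : ∀ i j : Fin n, a ≤ i.val → i.val + 1 = j.val → j.val + 2 < n →
    ∀ v ∈ N i, M.a i j v = 0 → v = 0
  gp1 : ∀ i : Fin n, i.val + 3 = n → ∀ v ∈ N i, (∀ j, i < j → M.a i j v = 0) → v = 0
  sec : ∃ e : ∀ i, V i, (∀ i, e i ∈ N i) ∧
    (∀ i j : Fin n, a ≤ i.val → i.val + 1 = j.val → j.val + 2 < n → M.a i j (e i) = e j) ∧
    (∀ i j : Fin n, i.val + 3 = n → n ≤ j.val + 2 → M.a i j (e i) ≠ 0)

variable [∀ i, Finite (V i)] {M : PiRep k n V} (R : Type) [CommRing R]

omit [∀ i, Finite (V i)] in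
theorem k2b3_finrank_map {W W' : Type} [AddCommGroup W] [Module k W] [AddCommGroup W'] [Module k W']
    (f : W →ₗ[k] W') (p : Submodule k W) (h : ∀ v ∈ p, f v = 0 → v = 0) :
    finrank k (p.map f) = finrank k p := by
  have hinj : Function.Injective (f.domRestrict p) := by
    rw [← LinearMap.ker_eq_bot, LinearMap.ker_eq_bot']
    intro v hv
    exact Subtype.ext (h v.1 v.2 hv)
  rw [← LinearMap.finrank_range_of_inj hinj, LinearMap.range_domRestrict]

omit [∀ i, Finite (V i)] in
theorem k2b3_rad {a : ℕ} {b c : Fin n} (hc : c.val + 1 = b.val) (hb : b.val + 2 < n)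
    {N : ∀ i, Submodule k (V i)} (h : M.IsFat a b.val N) :
    M.radAt b N b = (N c).map (M.a c b) := by
  rw [PiRep.radAt_same]
  refine le_antisymm (iSup_le fun j => ?_) (le_iSup (fun j => (N j).map (M.a j b)) c)
  by_cases hjc : j = c
  · rw [hjc]
  · have h0 : (N j).map (M.a j b) = ⊥ := by
      rcases lt_trichotomy j b with hlt | heq | hgt
      · have hna : ¬ adjD n j b := by
          have h1 : j.val < b.val := hlt
          have h2 : j.val ≠ c.val := fun e => hjc (Fin.ext e)
          unfold adjD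
          omega
        rw [M.zero j b hna, Submodule.map_zero]
      · rw [heq, PiRep.a_self, Submodule.map_zero]
      · rw [Submodule.eq_bot_iff]
        rintro _ ⟨v, hv, rfl⟩
        exact h.rev j b hgt v hv
    rw [h0]
    exact bot_le

theorem PiRep.IsFat.strip {a : ℕ} {b : Fin n} (hab : a < b.val) (hb : b.val + 2 < n)
    {N : ∀ i, Submodule k (V i)} (h : M.IsFat a b.val N) :
    M.IsFat a (b.val + 1) (M.radAt b N) ∧
    finrank k (M.radAt b N b) + 1 = finrank k (N b) ∧
    ∀ v ∈ N b, (∀ j, M.a b j v = 0) → v = 0 := by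
  have hbn := b.2
  set c : Fin n := ⟨b.val - 1, by omega⟩ with hcdef
  have hc : c.val + 1 = b.val := by
    show b.val - 1 + 1 = b.val
    omega
  have hrad := k2b3_rad hc hb h
  have hrad1 : finrank k (M.radAt b N b) = 1 := by
    rw [hrad, k2b3_finrank_map _ _ (h.inj c b (by omega) hc hb)]
    exact h.dim1 c (by omega) (by omega)
  have hle : M.radAt b N ≤ N := PiRep.radAt_le h.sub b
  refine ⟨?_, ?_, ?_⟩
  · obtain ⟨e, he1, he2, he3⟩ := h.sec
    refine ⟨PiRep.isSub_radAt h.sub b, fun i j hji v hv => h.rev i j hji v (hle i hv), ?_, ?_, ?_, ?_,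
      fun i j h1 h2 h3 v hv => h.inj i j h1 h2 h3 v (hle i hv),
      fun i h1 v hv => h.gp1 i h1 v (hle i hv), e, ?_, he2, he3⟩
    · intro i hi
      have hne : i ≠ b := fun e => by rw [e] at hi; omega
      rw [PiRep.radAt_ne M hne]
      exact h.dim0 i hi
    · intro i h1 h2
      by_cases hib : i = b
      · rw [hib]
        exact hrad1
      · have : i.val ≠ b.val := fun e => hib (Fin.ext e)
        rw [PiRep.radAt_ne M hib]
        exact h.dim1 i h1 (by omega)
    · intro i h1 h2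
      have hne : i ≠ b := fun e => by rw [e] at h1; omega
      rw [PiRep.radAt_ne M hne]
      exact h.dim2 i (by omega) h2
    · intro i h1
      have hne : i ≠ b := fun e => by rw [e] at h1; omega
      rw [PiRep.radAt_ne M hne]
      exact h.dimL i h1
    · intro i
      by_cases hib : i = b
      · rw [hib, hrad, ← he2 c b (by omega) hc hb]
        exact Submodule.mem_map_of_mem (he1 c)
      · rw [PiRep.radAt_ne M hib]
        exact he1 i
  · rw [hrad1, h.dim2 b le_rfl hb]
  · intro v hv hz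
    by_cases hb3 : b.val + 3 = n
    · exact h.gp1 b hb3 v hv fun j _ => hz j
    · exact h.inj b ⟨b.val + 1, by omega⟩ (by omega) rfl (by show b.val + 1 + 2 < n; omega) v hv (hz _)

theorem PiRep.IsFat.thin {a : ℕ} (ha : a + 2 < n) {N : ∀ i, Submodule k (V i)}
    (h : M.IsFat a (n - 2) N) : M.IsThin {i : Fin n | a ≤ i.val} N := by
  have hd1 : ∀ i : Fin n, a ≤ i.val → finrank k (N i) = 1 := by
    intro i hi
    by_cases h2 : i.val < n - 2
    · exact h.dim1 i hi h2
    · exact h.dimL i (by omega)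
  refine ⟨h.sub, fun i hi => hd1 i hi, fun i hi => h.dim0 i (not_le.1 hi), h.rev, ?_⟩
  intro i hi j _ hij hadj v hv hz
  have hi' : a ≤ i.val := hi
  have hij' : i.val < j.val := hij
  by_cases hleaf : j.val + 2 < n
  · refine h.inj i j hi' ?_ hleaf v hv hz
    unfold adjD at hadj
    omega
  · have hi3 : i.val + 3 = n := by
      unfold adjD at hadj
      omega
    obtain ⟨e, he1, -, he3⟩ := h.sec
    have hne := he3 i j hi3 (by omega)
    have he0 : (⟨e i, he1 i⟩ : N i) ≠ 0 := by
      intro h0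
      apply hne
      have : e i = 0 := congrArg Subtype.val h0
      rw [this, map_zero]
    obtain ⟨t, ht⟩ := (finrank_eq_one_iff_of_nonzero' _ he0).1 (hd1 i hi') ⟨v, hv⟩
    have ht' : t • e i = v := congrArg Subtype.val ht
    rw [← ht', map_smul, smul_eq_zero] at hz
    rcases hz with hz | hz
    · rw [← ht', hz, zero_smul]
    · exact absurd hz hne

theorem k2b_fat_str (a b m : ℕ) (hab : a < b) (hm : b + m + 2 = n) (N : ∀ i, Submodule k (V i))
    (h : M.IsFat a b N) :
    ∃ N', M.IsFat a (n - 2) N' ∧ ∀ B, M.deltaAt R N (k2bStr R n b m B) = M.deltaAt R N' B := by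
  induction m generalizing b N with
  | zero =>
    have e : b = n - 2 := by omega
    exact ⟨N, e ▸ h, fun B => rfl⟩
  | succ m ih =>
    have hbn : b < n := by omega
    obtain ⟨h1, htop, hsoc⟩ := PiRep.IsFat.strip (b := ⟨b, hbn⟩) hab (by show b + 2 < n; omega) h
    obtain ⟨N', hN', hB⟩ := ih (b + 1) (by omega) (by omega) _ h1
    refine ⟨N', hN', fun B => ?_⟩
    have e : k2bStr R n b (m + 1) B = fgen R n ⟨b, hbn⟩ * k2bStr R n (b + 1) m B -
        k2bStr R n (b + 1) m B * fgen R n ⟨b, hbn⟩ := by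
      show k2bGen R n b * k2bStr R n (b + 1) m B - k2bStr R n (b + 1) m B * k2bGen R n b = _
      unfold k2bGen
      rw [dif_pos hbn]
    rw [e, k2b_strip M R h.sub ⟨b, hbn⟩ htop hsoc, hB]

end Fat

/-! ## L-K2B-S4 : the explicit bricks -/

section Brick

variable (k : Type) [Field k] (n : ℕ)

/-- the matrices of the brick: identity-like along the trunk, `(1,1)ᵀ` at the jump `1 → 2`, first coordinate to the leaf `n-2`,
last coordinate to the leaf `n-1` -/
def k2bMat (β : PRD n) (i j : Fin n) : Matrix (Fin (β.dim j)) (Fin (β.dim i)) k :=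
  fun y x => if i < j ∧ adjD n i j then
      (if j.val + 1 = n then (if x.val + 1 = β.dim i then 1 else 0)
       else if x.val = y.val ∨ β.dim i < β.dim j then 1 else 0)
    else 0

/-- the brick of a positive root -/
def k2bBrick (β : PRD n) : PiMod k n β.dim where
  a := k2bMat k n β
  zero := fun i j h => by
    ext y x
    simp [k2bMat, h]
  rel := fun i => by
    apply Finset.sum_eq_zero
    intro j _
    have : k2bMat k n β j i * k2bMat k n β i j = 0 := by
      by_cases hij : i < j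
      · have h0 : k2bMat k n β j i = 0 := by
          ext y x
          have : ¬ (j < i) := not_lt.2 hij.le
          simp [k2bMat, this]
        rw [h0, Matrix.zero_mul]
      · have h0 : k2bMat k n β i j = 0 := by
          ext y x
          simp [k2bMat, hij]
        rw [h0, Matrix.mul_zero]
    rw [this, smul_zero]

variable {k n}

/-- INTERFACE -/
theorem k2bBrick_isOr (β : PRD n) : (k2bBrick k n β).IsOr := by
  intro i j hji
  ext y x
  have : ¬ (i < j) := not_lt.2 hji.le
  simp [k2bBrick, k2bMat, this]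

theorem k2bBrick_a_apply (β : PRD n) (i j : Fin n) (v : Fin (β.dim i) → k) (y : Fin (β.dim j)) :
    (k2bBrick k n β).toRep.a i j v y = ∑ x, k2bMat k n β i j y x * v x := rfl

theorem k2bBrick_top_sub (β : PRD n) : (k2bBrick k n β).toRep.IsSub ⊤ := fun _ _ => le_top

theorem k2bBrick_top_rev (β : PRD n) (i j : Fin n) (hji : j < i) (v : Fin (β.dim i) → k) :
    (k2bBrick k n β).toRep.a i j v = 0 := by
  funext y
  rw [k2bBrick_a_apply]
  apply Finset.sum_eq_zero
  intro x _
  have : ¬ (i < j) := not_lt.2 hji.le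
  simp [k2bMat, this]

theorem k2bBrick_top_finrank (β : PRD n) (i : Fin n) :
    finrank k ((⊤ : ∀ i, Submodule k (Fin (β.dim i) → k)) i) = β.dim i := by
  simp

theorem k2bBrick_top_bot (β : PRD n) (i : Fin n) (h : β.dim i = 0) :
    (⊤ : ∀ i, Submodule k (Fin (β.dim i) → k)) i = ⊥ := by
  rw [eq_bot_iff]
  intro v _
  rw [Submodule.mem_bot]
  funext x
  exact absurd x.2 (by omega)

/-- arrows along the trunk (and to the leaf `n-2`), evaluated at the "same" coordinate -/
theorem k2bBrick_trunk_apply (β : PRD n) (i j : Fin n) (hij : i < j) (hadj : adjD n i j)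
    (hj : j.val + 1 ≠ n) (v : Fin (β.dim i) → k) (x : Fin (β.dim i)) (hx : x.val < β.dim j)
    (h : β.dim j ≤ β.dim i ∨ β.dim i = 1) :
    (k2bBrick k n β).toRep.a i j v ⟨x.val, hx⟩ = v x := by
  rw [k2bBrick_a_apply, Finset.sum_eq_single x]
  · simp [k2bMat, hij, hadj, hj]
  · intro x' _ hne
    have hne' : x'.val ≠ x.val := fun e => hne (Fin.ext e)
    rcases h with h | h
    · have : ¬ (β.dim i < β.dim j) := by omega
      simp [k2bMat, hij, hadj, hj, hne', this]
    · exact absurd (show x'.val = x.val by have := x'.2; have := x.2; omega) hne'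
  · intro hx'
    exact absurd (Finset.mem_univ x) hx'

/-- the arrow to the leaf `n-1` picks the last coordinate -/
theorem k2bBrick_last_apply (β : PRD n) (i j : Fin n) (hij : i < j) (hadj : adjD n i j)
    (hj : j.val + 1 = n) (v : Fin (β.dim i) → k) (x : Fin (β.dim i)) (hx : x.val + 1 = β.dim i)
    (y : Fin (β.dim j)) :
    (k2bBrick k n β).toRep.a i j v y = v x := by
  rw [k2bBrick_a_apply, Finset.sum_eq_single x]
  · simp [k2bMat, hij, hadj, hj, hx]
  · intro x' _ hne
    have hne' : x'.val + 1 ≠ β.dim i := fun e => hne (Fin.ext (by omega))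
    simp [k2bMat, hij, hadj, hj, hne']
  · intro hx'
    exact absurd (Finset.mem_univ x) hx'

/-- a brick whose dimension vector is the indicator of `S` is thin -/
theorem k2bBrick_thin_of (β : PRD n) (S : Set (Fin n)) (h1 : ∀ i ∈ S, β.dim i = 1)
    (h0 : ∀ i ∉ S, β.dim i = 0) : (k2bBrick k n β).toRep.IsThin S ⊤ := by
  refine ⟨k2bBrick_top_sub β, fun i hi => ?_, fun i hi => k2bBrick_top_bot β i (h0 i hi),
    fun i j hji v _ => k2bBrick_top_rev β i j hji v, ?_⟩
  · rw [k2bBrick_top_finrank, h1 i hi]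
  · intro i hi j hj hij hadj v _ hv
    funext x
    have hx0 : x.val = 0 := by have := x.2; have := h1 i hi; omega
    by_cases hjn : j.val + 1 = n
    · have := k2bBrick_last_apply β i j hij hadj hjn v x (by rw [hx0, h1 i hi])
        ⟨0, by rw [h1 j hj]; exact Nat.one_pos⟩
      rw [← this, hv]; rfl
    · have := k2bBrick_trunk_apply β i j hij hadj hjn v x (by rw [hx0, h1 j hj]; exact Nat.one_pos)
        (Or.inr (h1 i hi))
      rw [← this, hv]; rfl

theorem k2bBrick_thin1 (β : PRD n) (h : β.1.1 = false) :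
    (k2bBrick k n β).toRep.IsThin
      ({i : Fin n | (β.1.2.1 : ℕ) ≤ i.val ∧ i.val < β.1.2.1 + (β.1.2.2 - 1 - β.1.2.1)} ∪
        {⟨β.1.2.2 - 1, by have := β.1.2.2.2; omega⟩}) ⊤ := by
  obtain ⟨⟨sg, a, b⟩, hab⟩ := β
  have hab' : a.val < b.val := hab
  have hbn := b.2
  obtain rfl : sg = false := h
  apply k2bBrick_thin_of
  · intro i hi
    have hi' : (a.val ≤ i.val ∧ i.val < a.val + (b.val - 1 - a.val)) ∨ i.val = b.val - 1 := by
      rcases hi with hi | hi
      · exact Or.inl hi
      · exact Or.inr (congrArg Fin.val hi)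
    have : a.val ≤ i.val ∧ i.val < b.val := by omega
    simp [PRD.dim, this]
  · intro i hi
    have hi' : ¬ (a.val ≤ i.val ∧ i.val < b.val) := by
      intro hc
      apply hi
      by_cases e : i.val = b.val - 1
      · exact Or.inr (Fin.ext e)
      · exact Or.inl (show a.val ≤ i.val ∧ i.val < a.val + (b.val - 1 - a.val) by omega)
    show (if a.val ≤ i.val ∧ i.val < b.val then 1 else 0) = 0
    rw [if_neg hi']

theorem k2bBrick_thin2 (β : PRD n) (h : β.1.1 = true) (hb : (β.1.2.2 : ℕ) + 1 = n) :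
    (k2bBrick k n β).toRep.IsThin
      ({i : Fin n | (β.1.2.1 : ℕ) ≤ i.val ∧ i.val < β.1.2.1 + (n - 2 - β.1.2.1)} ∪
        {⟨n - 1, by have := β.1.2.2.2; omega⟩}) ⊤ := by
  obtain ⟨⟨sg, a, b⟩, hab⟩ := β
  have hab' : a.val < b.val := hab
  have hbn := b.2
  obtain rfl : sg = true := h
  have hb' : b.val + 1 = n := hb
  apply k2bBrick_thin_of
  · intro i hi
    have hi' : (a.val ≤ i.val ∧ i.val < a.val + (n - 2 - a.val)) ∨ i.val = n - 1 := by
      rcases hi with hi | hi
      · exact Or.inl hi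
      · exact Or.inr (congrArg Fin.val hi)
    by_cases e : i.val + 1 = n
    · simp [PRD.dim, e]
    · have c1 : a.val ≤ i.val ∧ i.val + 2 < n := by omega
      have c2 : ¬ (b.val ≤ i.val) := by omega
      simp [PRD.dim, e, c1, c2]
  · intro i hi
    have e : ¬ (i.val + 1 = n) := by
      intro e
      exact hi (Or.inr (Fin.ext (show i.val = n - 1 by omega)))
    have c1 : ¬ (a.val ≤ i.val ∧ i.val + 2 < n) := by
      intro hc
      exact hi (Or.inl (show a.val ≤ i.val ∧ i.val < a.val + (n - 2 - a.val) by omega))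
    have c2 : ¬ (b.val ≤ i.val) := by have := i.2; omega
    show (if i.val + 1 = n then 1 else (if a.val ≤ i.val ∧ i.val + 2 < n then 1 else 0)
      + (if b.val ≤ i.val then 1 else 0)) = 0
    rw [if_neg e, if_neg c1, if_neg c2]

theorem k2bBrick_fat (β : PRD n) (h : β.1.1 = true) (hb : (β.1.2.2 : ℕ) + 1 ≠ n) :
    (k2bBrick k n β).toRep.IsFat β.1.2.1 β.1.2.2 ⊤ := by
  obtain ⟨⟨sg, a, b⟩, hab⟩ := β
  have hab' : a.val < b.val := hab
  have hbn := b.2
  obtain rfl : sg = true := h
  have hb' : b.val + 1 ≠ n := hb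
  set β : PRD n := ⟨(true, a, b), hab⟩ with hβ
  have hdim : ∀ i : Fin n, β.dim i = if i.val + 1 = n then 1
      else (if a.val ≤ i.val ∧ i.val + 2 < n then 1 else 0) + (if b.val ≤ i.val then 1 else 0) := by
    intro i
    simp [hβ, PRD.dim]
  have d0 : ∀ i : Fin n, i.val < a.val → β.dim i = 0 := by
    intro i hi
    rw [hdim, if_neg (by omega), if_neg (by omega), if_neg (by omega)]
  have d1 : ∀ i : Fin n, a.val ≤ i.val → i.val < b.val → β.dim i = 1 := by
    intro i hi hi'
    rw [hdim, if_neg (by omega), if_pos (by omega), if_neg (by omega)]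
  have d2 : ∀ i : Fin n, b.val ≤ i.val → i.val + 2 < n → β.dim i = 2 := by
    intro i hi hi'
    rw [hdim, if_neg (by omega), if_pos (by omega), if_pos (by omega)]
  have dL : ∀ i : Fin n, n ≤ i.val + 2 → β.dim i = 1 := by
    intro i hi
    rw [hdim]
    by_cases e : i.val + 1 = n
    · rw [if_pos e]
    · rw [if_neg e, if_neg (by omega), if_pos (by have := i.2; omega)]
  -- dimensions along a trunk arrow
  have dT : ∀ i j : Fin n, a.val ≤ i.val → i.val + 1 = j.val → j.val + 2 < n →
      β.dim i ≤ β.dim j ∧ (β.dim j ≤ β.dim i ∨ β.dim i = 1) ∧ 1 ≤ β.dim i := by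
    intro i j hi hij hj
    by_cases c : i.val < b.val
    · rw [d1 i hi c]
      by_cases c' : j.val < b.val
      · rw [d1 j (by omega) c']; omega
      · rw [d2 j (by omega) hj]; omega
    · rw [d2 i (by omega) (by omega), d2 j (by omega) hj]; omega
  have adjT : ∀ i j : Fin n, i.val + 1 = j.val → j.val + 2 < n → i < j ∧ adjD n i j := by
    intro i j hij hj
    exact ⟨Fin.lt_def.2 (by omega), Or.inl ⟨hij, by omega⟩⟩
  refine ⟨k2bBrick_top_sub β, fun i j hji v _ => k2bBrick_top_rev β i j hji v,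
    fun i hi => k2bBrick_top_bot β i (d0 i hi),
    fun i h1 h2 => by rw [k2bBrick_top_finrank, d1 i h1 h2],
    fun i h1 h2 => by rw [k2bBrick_top_finrank, d2 i h1 h2],
    fun i h1 => by rw [k2bBrick_top_finrank, dL i h1], ?_, ?_, ?_⟩
  · intro i j hi hij hj v _ hv
    obtain ⟨t1, t2, _⟩ := dT i j hi hij hj
    obtain ⟨u1, u2⟩ := adjT i j hij hj
    funext x
    have := k2bBrick_trunk_apply β i j u1 u2 (by omega) v x (lt_of_lt_of_le x.2 t1) t2
    rw [← this, hv]; rfl
  · intro i hi v _ hv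
    have hn3 : 3 ≤ n := by omega
    have hci : 1 ≤ β.dim i ∧ β.dim i ≤ 2 := by
      by_cases c : i.val < b.val
      · rw [d1 i (by omega) c]; omega
      · rw [d2 i (by omega) (by omega)]; omega
    have e1 := hv ⟨n - 2, by omega⟩ (Fin.lt_def.2 (by show i.val < n - 2; omega))
    have e2 := hv ⟨n - 1, by omega⟩ (Fin.lt_def.2 (by show i.val < n - 1; omega))
    have dj1 : β.dim ⟨n - 2, by omega⟩ = 1 := dL _ (by show n ≤ n - 2 + 2; omega)
    have dj2 : β.dim ⟨n - 1, by omega⟩ = 1 := dL _ (by show n ≤ n - 1 + 2; omega)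
    funext x
    by_cases hx : x.val = 0
    · have := k2bBrick_trunk_apply β i ⟨n - 2, by omega⟩
        (Fin.lt_def.2 (by show i.val < n - 2; omega))
        (Or.inl ⟨by show i.val + 1 = n - 2; omega, by show n - 2 + 1 < n; omega⟩)
        (by show n - 2 + 1 ≠ n; omega) v x (by rw [dj1, hx]; exact Nat.one_pos)
        (Or.inl (by rw [dj1]; exact hci.1))
      rw [← this, e1]; rfl
    · have := k2bBrick_last_apply β i ⟨n - 1, by omega⟩
        (Fin.lt_def.2 (by show i.val < n - 1; omega))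
        (Or.inr (Or.inr (Or.inl ⟨hi, by show n - 1 + 1 = n; omega⟩)))
        (by show n - 1 + 1 = n; omega) v x (by have := x.2; omega)
        ⟨0, by rw [dj2]; exact Nat.one_pos⟩
      rw [← this, e2]; rfl
  · refine ⟨fun _ _ => 1, fun _ => trivial, ?_, ?_⟩
    · intro i j hi hij hj
      obtain ⟨t1, t2, t3⟩ := dT i j hi hij hj
      obtain ⟨u1, u2⟩ := adjT i j hij hj
      funext y
      by_cases hy : y.val < β.dim i
      · exact k2bBrick_trunk_apply β i j u1 u2 (by omega) (fun _ => 1) ⟨y.val, hy⟩ y.2 t2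
      · have hlt : β.dim i < β.dim j := by have := y.2; omega
        have hi1 : β.dim i = 1 := by omega
        rw [k2bBrick_a_apply, Finset.sum_eq_single (⟨0, by omega⟩ : Fin (β.dim i))]
        · have hjn : ¬ (j.val + 1 = n) := by omega
          simp [k2bMat, u1, u2, hjn, hlt]
        · intro x' _ hne
          exact absurd (Fin.ext (show x'.val = 0 by have := x'.2; omega)) hne
        · intro hx'
          exact absurd (Finset.mem_univ _) hx'
    · intro i j hi hj hz
      have hci : 1 ≤ β.dim i := by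
        by_cases c : i.val < b.val
        · rw [d1 i (by omega) c]
        · rw [d2 i (by omega) (by omega)]; omega
      have dj : β.dim j = 1 := dL j hj
      have hz0 := congrFun hz ⟨0, by rw [dj]; exact Nat.one_pos⟩
      by_cases e : j.val + 1 = n
      · have := k2bBrick_last_apply β i j (Fin.lt_def.2 (by omega))
          (Or.inr (Or.inr (Or.inl ⟨hi, e⟩))) e (fun _ => (1 : k)) ⟨β.dim i - 1, by omega⟩
          (by show β.dim i - 1 + 1 = β.dim i; omega) ⟨0, by rw [dj]; exact Nat.one_pos⟩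
        rw [this] at hz0
        exact one_ne_zero hz0
      · have hj2 : j.val + 2 = n := by have := j.2; omega
        have := k2bBrick_trunk_apply β i j (Fin.lt_def.2 (by omega))
          (Or.inl ⟨by omega, by omega⟩) e (fun _ => (1 : k)) ⟨0, by omega⟩
          (by rw [dj]; exact Nat.one_pos) (Or.inl (by rw [dj]; exact hci))
        rw [this] at hz0
        exact one_ne_zero hz0

end Brick

/-! ## L-K2B-S5 : degrees -/

section Degree

variable {R : Type} [CommRing R] {n : ℕ}

/-- homogeneous of degree `e` -/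
def K2bHom (e : Fin n → ℕ) (x : FreeAlgebra R (Fin n)) : Prop :=
  x ∈ Submodule.span R {y | ∃ w : List (Fin n), (∀ i, w.count i = e i) ∧ y = wordMon R n w}

theorem k2bHom_zero (e : Fin n → ℕ) : K2bHom e (0 : FreeAlgebra R (Fin n)) := Submodule.zero_mem _

theorem k2bHom_sub {e : Fin n → ℕ} {x y : FreeAlgebra R (Fin n)} (hx : K2bHom e x) (hy : K2bHom e y) :
    K2bHom e (x - y) := Submodule.sub_mem _ hx hy

theorem k2bHom_mul {e e' : Fin n → ℕ} {x y : FreeAlgebra R (Fin n)} (hx : K2bHom e x)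
    (hy : K2bHom e' y) : K2bHom (fun i => e i + e' i) (x * y) := by
  have h := Submodule.mul_mem_mul hx hy
  rw [Submodule.span_mul_span] at h
  refine Submodule.span_mono ?_ h
  rintro _ ⟨_, ⟨w, hw, rfl⟩, _, ⟨w', hw', rfl⟩, rfl⟩
  exact ⟨w ++ w', fun i => by rw [List.count_append, hw, hw'], (wordMon_append R n w w').symm⟩

theorem k2bHom_br {e e' : Fin n → ℕ} {x y : FreeAlgebra R (Fin n)} (hx : K2bHom e x)
    (hy : K2bHom e' y) : K2bHom (fun i => e i + e' i) (x * y - y * x) := by
  refine k2bHom_sub (k2bHom_mul hx hy) ?_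
  have h := k2bHom_mul hy hx
  have e0 : (fun i => e' i + e i) = fun i => e i + e' i := funext fun i => add_comm _ _
  rwa [e0] at h

theorem k2bHom_gen (j : ℕ) :
    K2bHom (fun i : Fin n => if i.val = j then 1 else 0) (k2bGen R n j) := by
  unfold k2bGen
  split_ifs with h
  · refine Submodule.subset_span ⟨[⟨j, h⟩], fun i => ?_, (wordMon_singleton R n _).symm⟩
    rw [List.count_singleton]
    by_cases hi : i.val = j
    · have : (⟨j, h⟩ : Fin n) = i := Fin.ext hi.symm
      simp [hi, this]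
    · have : ¬ ((⟨j, h⟩ : Fin n) = i) := fun e => hi (congrArg Fin.val e).symm
      simp [hi, this]
  · exact k2bHom_zero _

theorem k2bHom_str (lo m : ℕ) {e : Fin n → ℕ} {B : FreeAlgebra R (Fin n)} (hB : K2bHom e B) :
    K2bHom (fun i => e i + if lo ≤ i.val ∧ i.val < lo + m then 1 else 0) (k2bStr R n lo m B) := by
  induction m generalizing lo with
  | zero =>
    have e0 : (fun i : Fin n => e i + if lo ≤ i.val ∧ i.val < lo + 0 then 1 else 0) = e := by
      funext i
      rw [if_neg (by omega), add_zero]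
    rw [e0]
    exact hB
  | succ m ih =>
    have h := k2bHom_br (k2bHom_gen (R := R) (n := n) lo) (ih (lo + 1))
    have e0 : (fun i : Fin n => (if i.val = lo then 1 else 0) +
        (e i + if lo + 1 ≤ i.val ∧ i.val < lo + 1 + m then 1 else 0)) =
        fun i : Fin n => e i + if lo ≤ i.val ∧ i.val < lo + (m + 1) then 1 else 0 := by
      funext i
      split_ifs <;> omega
    rw [e0] at h
    exact h

theorem k2bHom_fork : K2bHom (fun i : Fin n => (if i.val = n - 2 then 1 else 0) +
    ((if i.val = n - 3 then 1 else 0) + (if i.val = n - 1 then 1 else 0))) (k2bFork R n) :=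
  k2bHom_br (k2bHom_gen _) (k2bHom_br (k2bHom_gen _) (k2bHom_gen _))

theorem k2bP_hom (hn : 2 ≤ n) (β : PRD n) : K2bHom β.dim (k2bP R n β) := by
  obtain ⟨⟨sg, a, b⟩, hab⟩ := β
  have hab' : a.val < b.val := hab
  have hbn := b.2
  cases sg with
  | false =>
    have h := k2bHom_str (R := R) a.val (b.val - 1 - a.val) (k2bHom_gen (R := R) (n := n) (b.val - 1))
    have e0 : (fun i : Fin n => (if i.val = b.val - 1 then 1 else 0) +
        if a.val ≤ i.val ∧ i.val < a.val + (b.val - 1 - a.val) then 1 else 0) =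
        PRD.dim (⟨(false, a, b), hab⟩ : PRD n) := by
      funext i
      simp only [PRD.dim, Bool.false_eq_true, if_false]
      split_ifs <;> omega
    rw [e0] at h
    simpa [k2bP] using h
  | true =>
    by_cases hb : b.val + 1 = n
    · have h := k2bHom_str (R := R) a.val (n - 2 - a.val) (k2bHom_gen (R := R) (n := n) (n - 1))
      have e0 : (fun i : Fin n => (if i.val = n - 1 then 1 else 0) +
          if a.val ≤ i.val ∧ i.val < a.val + (n - 2 - a.val) then 1 else 0) =
          PRD.dim (⟨(true, a, b), hab⟩ : PRD n) := by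
        funext i
        have hi := i.2
        simp only [PRD.dim, if_true]
        split_ifs <;> omega
      rw [e0] at h
      simpa [k2bP, hb] using h
    · have h := k2bHom_str (R := R) b.val (n - 2 - b.val)
        (k2bHom_str (R := R) a.val (n - 3 - a.val) (k2bHom_fork (R := R) (n := n)))
      have e0 : (fun i : Fin n => ((if i.val = n - 2 then 1 else 0) +
          ((if i.val = n - 3 then 1 else 0) + (if i.val = n - 1 then 1 else 0)) +
          if a.val ≤ i.val ∧ i.val < a.val + (n - 3 - a.val) then 1 else 0) +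
          if b.val ≤ i.val ∧ i.val < b.val + (n - 2 - b.val) then 1 else 0) =
          PRD.dim (⟨(true, a, b), hab⟩ : PRD n) := by
        funext i
        have hi := i.2
        simp only [PRD.dim, if_true]
        split_ifs <;> omega
      rw [e0] at h
      simpa [k2bP, hb] using h

/-- `PRD.dim` on natural numbers -/
def k2b5Dim (n : ℕ) (s : Bool) (a b i : ℕ) : ℕ :=
  if s then
    (if i + 1 = n then 1
     else (if a ≤ i ∧ i + 2 < n then 1 else 0) + (if b ≤ i then 1 else 0))
  else (if a ≤ i ∧ i < b then 1 else 0)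

theorem k2b5_dim_inj {n a b a' b' : ℕ} {s s' : Bool} (hab : a < b) (hb : b < n) (hab' : a' < b')
    (hb' : b' < n) (h : ∀ i, i < n → k2b5Dim n s a b i = k2b5Dim n s' a' b' i) :
    s = s' ∧ a = a' ∧ b = b' := by
  have h1 := h (n - 1) (by omega)
  have h3 := h a (by omega)
  have h4 := h a' (by omega)
  have h5 := h b (by omega)
  have h6 := h b' (by omega)
  have h7 := h (b - 1) (by omega)
  have h8 := h (b' - 1) (by omega)
  clear h
  unfold k2b5Dim at h1 h3 h4 h5 h6 h7 h8
  cases s <;> cases s'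
  · simp only [Bool.false_eq_true, if_false] at h3 h4 h7 h8
    have g1 : a' ≤ a := by split_ifs at h3 <;> omega
    have g2 : a ≤ a' := by split_ifs at h4 <;> omega
    have g3 : b ≤ b' := by split_ifs at h7 <;> omega
    have g4 : b' ≤ b := by split_ifs at h8 <;> omega
    exact ⟨rfl, by omega, by omega⟩
  · exfalso
    simp only [Bool.false_eq_true, if_false, if_true] at h1
    split_ifs at h1 <;> omega
  · exfalso
    simp only [Bool.false_eq_true, if_false, if_true] at h1
    split_ifs at h1 <;> omega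
  · simp only [if_true] at h3 h4 h5 h6
    have g1 : b' ≤ b := by split_ifs at h5 <;> omega
    have g2 : b ≤ b' := by split_ifs at h6 <;> omega
    have g3 : a' ≤ a := by split_ifs at h3 <;> omega
    have g4 : a ≤ a' := by split_ifs at h4 <;> omega
    exact ⟨rfl, by omega, by omega⟩

theorem PRD.dim_injective (n : ℕ) : Function.Injective (PRD.dim : PRD n → Fin n → ℕ) := by
  rintro ⟨⟨s, a, b⟩, hab⟩ ⟨⟨s', a', b'⟩, hab'⟩ h
  obtain ⟨h1, h2, h3⟩ := k2b5_dim_inj (s := s) (s' := s') (show a.val < b.val from hab) b.2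
    (show a'.val < b'.val from hab') b'.2 (fun i hi => congrFun h ⟨i, hi⟩)
  have e2 : a = a' := Fin.ext h2
  have e3 : b = b' := Fin.ext h3
  subst h1 e2 e3
  rfl

theorem k2b_hom_zero {k : Type} [Field k] {V : Fin n → Type} [∀ i, AddCommGroup (V i)]
    [∀ i, Module k (V i)] [∀ i, Finite (V i)] (M : PiRep k n V) (N : ∀ i, Submodule k (V i))
    (e : Fin n → ℕ) (he : e ≠ fun i => finrank k (N i)) {x : FreeAlgebra R (Fin n)}
    (hx : K2bHom e x) : M.deltaAt R N x = 0 := by
  have hle : Submodule.span R {y | ∃ w : List (Fin n), (∀ i, w.count i = e i) ∧ y = wordMon R n w} ≤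
      LinearMap.ker (M.deltaAt R N) := by
    rw [Submodule.span_le]
    rintro y ⟨w, hw, rfl⟩
    rw [SetLike.mem_coe, LinearMap.mem_ker, PiRep.deltaAt_wordMon]
    by_cases h : M.cnt w N ⊥ = 0
    · rw [h]
      simp
    · exact absurd (funext fun i => (hw i).symm.trans (k2b_cnt_count M h i)) he
  exact hle hx

end Degree

/-! ## INTERFACE (glue, no sorry of its own) -/

section Interface

variable {k : Type} [Field k] [Fintype k] {n : ℕ} (R : Type) [CommRing R]

omit [Fintype k] in
theorem k2bBrick_finrank (γ : PRD n) :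
    (fun i => finrank k ((⊤ : ∀ i, Submodule k (Fin (γ.dim i) → k)) i)) = γ.dim := by
  funext i
  simp

/-- INTERFACE -/
theorem k2bBrick_one (γ : PRD n) : (k2bBrick k n γ).delta R 1 = 0 := by
  unfold PiMod.delta PiRep.delta
  apply PiRep.deltaAt_one_ne
  intro h
  have h1 := k2bBrick_finrank (k := k) γ
  rw [h] at h1
  have h2 := γ.dim_sum_pos
  rw [← h1] at h2
  simp at h2

/-- INTERFACE -/
theorem k2bBrick_off (hn : 2 ≤ n) {β γ : PRD n} (h : β ≠ γ) :
    (k2bBrick k n γ).delta R (k2bP R n β) = 0 := by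
  unfold PiMod.delta PiRep.delta
  apply k2b_hom_zero _ _ β.dim _ (k2bP_hom hn β)
  rw [k2bBrick_finrank]
  exact fun e => h (PRD.dim_injective n e)

/-- INTERFACE -/
theorem k2bBrick_diag (γ : PRD n) : IsUnit ((k2bBrick k n γ).delta R (k2bP R n γ)) := by
  obtain ⟨⟨sg, a, b⟩, hab⟩ := γ
  have hab' : a.val < b.val := hab
  have hbn := b.2
  unfold PiMod.delta PiRep.delta
  cases sg with
  | false =>
    have h1 : (k2bBrick k n (⟨(false, a, b), hab⟩ : PRD n)).toRep.IsThin
        ({i : Fin n | a.val ≤ i.val ∧ i.val < a.val + (b.val - 1 - a.val)} ∪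
          {(⟨b.val - 1, by omega⟩ : Fin n)}) ⊤ :=
      k2bBrick_thin1 (k := k) (⟨(false, a, b), hab⟩ : PRD n) rfl
    obtain ⟨N', hN', hB⟩ := k2b_thin_str R a.val (b.val - 1 - a.val) (by omega)
      {(⟨b.val - 1, by omega⟩ : Fin n)}
      (by rintro t rfl; show a.val + (b.val - 1 - a.val) ≤ b.val - 1; omega)
      (fun hm => ⟨⟨b.val - 1, by omega⟩, rfl, ⟨b.val - 2, by omega⟩,
        by show b.val - 2 + 1 = a.val + (b.val - 1 - a.val); omega,
        Or.inl ⟨by show b.val - 2 + 1 = b.val - 1; omega, by show b.val - 1 + 1 < n; omega⟩⟩) _ h1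
    have e : k2bP R n (⟨(false, a, b), hab⟩ : PRD n) =
        k2bStr R n a.val (b.val - 1 - a.val) (fgen R n ⟨b.val - 1, by omega⟩) := by
      have : b.val - 1 < n := by omega
      simp [k2bP, k2bGen, this]
    rw [e, hB, k2b_thin_point R _ _ hN']
    exact isUnit_one
  | true =>
    by_cases hb : b.val + 1 = n
    · have h1 : (k2bBrick k n (⟨(true, a, b), hab⟩ : PRD n)).toRep.IsThin
          ({i : Fin n | a.val ≤ i.val ∧ i.val < a.val + (n - 2 - a.val)} ∪
            {(⟨n - 1, by omega⟩ : Fin n)}) ⊤ :=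
        k2bBrick_thin2 (k := k) (⟨(true, a, b), hab⟩ : PRD n) rfl hb
      obtain ⟨N', hN', hB⟩ := k2b_thin_str R a.val (n - 2 - a.val) (by omega)
        {(⟨n - 1, by omega⟩ : Fin n)}
        (by rintro t rfl; show a.val + (n - 2 - a.val) ≤ n - 1; omega)
        (fun hm => ⟨⟨n - 1, by omega⟩, rfl, ⟨n - 3, by omega⟩,
          by show n - 3 + 1 = a.val + (n - 2 - a.val); omega,
          Or.inr (Or.inr (Or.inl ⟨by show n - 3 + 3 = n; omega, by show n - 1 + 1 = n; omega⟩))⟩)
        _ h1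
      have e : k2bP R n (⟨(true, a, b), hab⟩ : PRD n) =
          k2bStr R n a.val (n - 2 - a.val) (fgen R n ⟨n - 1, by omega⟩) := by
        have : n - 1 < n := by omega
        simp [k2bP, k2bGen, this, hb]
      rw [e, hB, k2b_thin_point R _ _ hN']
      exact isUnit_one
    · have h1 : (k2bBrick k n (⟨(true, a, b), hab⟩ : PRD n)).toRep.IsFat a.val b.val ⊤ :=
        k2bBrick_fat (k := k) (⟨(true, a, b), hab⟩ : PRD n) rfl hb
      obtain ⟨N₁, hN₁, hB₁⟩ := k2b_fat_str R a.val b.val (n - 2 - b.val) hab' (by omega) _ h1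
      have h2 := hN₁.thin (by omega)
      have hS : {i : Fin n | a.val ≤ i.val} =
          {i : Fin n | a.val ≤ i.val ∧ i.val < a.val + (n - 3 - a.val)} ∪
            {i : Fin n | n ≤ i.val + 3} := by
        ext i
        show a.val ≤ i.val ↔ (a.val ≤ i.val ∧ i.val < a.val + (n - 3 - a.val)) ∨ n ≤ i.val + 3
        omega
      rw [hS] at h2
      obtain ⟨N₂, hN₂, hB₂⟩ := k2b_thin_str R a.val (n - 3 - a.val) (by omega)
        {i : Fin n | n ≤ i.val + 3}
        (by intro t ht; have ht' : n ≤ t.val + 3 := ht; omega)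
        (fun hm => ⟨⟨n - 3, by omega⟩, by show n ≤ n - 3 + 3; omega,
          ⟨n - 4, by omega⟩, by show n - 4 + 1 = a.val + (n - 3 - a.val); omega,
          Or.inl ⟨by show n - 4 + 1 = n - 3; omega, by show n - 3 + 1 < n; omega⟩⟩) _ h2
      have e : k2bP R n (⟨(true, a, b), hab⟩ : PRD n) =
          k2bStr R n b.val (n - 2 - b.val) (k2bStr R n a.val (n - 3 - a.val) (k2bFork R n)) := by
        simp [k2bP, hb]
      rw [e, hB₁, hB₂, k2b_thin_fork R (by omega) _ hN₂]
      exact isUnit_one.neg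

end Interface

end Claimed.Agent.R282
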