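import Claimed.Agent.R282.K2.FreeKit

/-!
# Row 282, K2, package B, part 1 (pure algebra): convolution of functionals on the free algebra, primitive elements

`F = FreeAlgebra R (Fin n)`, `Δ = k2bDelta : F →ₐ F ⊗ F`, `f_i ↦ f_i ⊗ 1 + 1 ⊗ f_i`.   For `α β : F →ₗ R`:
`k2bConv α β = (α ⊗ β) ∘ Δ`,  `k2bTr P α = α (P * ·)`,  `k2bEps` = the counit,  `K2bPrim P : Δ P = P ⊗ 1 + 1 ⊗ P`.
OUTPUT: `k2b_separate` (used by `B/Main.lean`): iterated convolutions of "brick functionals" determine the multiset of bricks.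

## Leaf L-K2B-H1 (basics, ~200 lines)
* `k2b_prim_gen` : `FreeAlgebra.lift_ι_apply`.   `k2b_prim_br` : `map_sub, map_mul`, rewrite, `Algebra.TensorProduct.tmul_mul_tmul`, `add_mul, mul_add`, `abel`.
* `k2bConv_one` : `map_one`, `Algebra.TensorProduct.one_def`, `TensorProduct.map_tmul`, `LinearMap.mul'_apply`.
* `k2bConv_prim` : `Δ (P x) = (P ⊗ 1 + 1 ⊗ P) Δ x`; for all `y : F ⊗ F` (`TensorProduct.induction_on`)
  `mul' (map α β ((P ⊗ 1) * y)) = mul' (map (Tr P α) β y)` and the same on the right.
* bilinearity: `TensorProduct.map_add_left`, `map_smul_left`, ... ; sums by `Finset.induction_on` (or `map_sum` for the bilinear map `TensorProduct.mapBilinear`).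
* `k2bEps_conv` : `fk_ext`, induction on the word generalizing `β`: `wordMon_cons`, `k2bConv_prim (k2b_prim_gen i)`,
  `k2bTr (f_i) ε = 0` (`ε` is an algebra map killing `f_i`), `k2bConv_zero_left`.
## Leaf L-K2B-H2 (order of vanishing, ~250 lines)
`K2bOrd s α` : `α` kills all products of fewer than `s` primitive elements.
* `k2bOrd_tr` : `(Tr P α) (L.prod) = α ((P :: L).prod)`.
* `k2bOrd_conv` : induction on `L` generalizing `α β s s'`.  `[]`: `k2bConv_one`; `s + s' > 0` so `α 1 = 0` or `β 1 = 0` (the empty product).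
   `P :: L`: `k2bConv_prim`; `Tr P α` has order `s - 1`, and `L.length < (s - 1) + s'`, resp. `< s + (s' - 1)`  (if `s = 0` then `L.length + 1 < s'`).
* `k2bConv_top` (Lemma T): `α` of order 1, `β` of order `r`, `L.length = r + 1`:
   `conv α β L.prod = ∑ j : Fin L.length, α (L.get j) * β (L.eraseIdx j).prod`.
   Induction on `L` generalizing `β r`:  `conv α β (P * x) = conv (Tr P α) β x + conv α (Tr P β) x`.
   First term: `Tr P α = α P • ε + κ`, `κ := Tr P α - α P • ε`, `κ 1 = 0` so `κ` has order 1, `conv κ β` has order `r + 1 > L.length`; so it is `α P * β x`.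
   Second term: if `r = 0` then `L = []` and `conv α (..) 1 = α 1 * .. = 0`; else the induction hypothesis for `Tr P β` (order `r - 1`);
   `Fin.sum_univ_succ`, `List.eraseIdx_cons_succ`.
## Leaf L-K2B-H3 (bricks, ~250 lines)
* `k2b_value` : induction on `γs`.  `[]`: `βs = []`, value `ε 1 = 1`.   `γ :: γs`: `C := foldr` has order `γs.length` (`k2bOrd_conv`, each `δ γ` has order 1, `ε` order 0).
   `βs.length < γs.length + 1`: zero by order (and not a permutation).   `βs.length = γs.length + 1`: `k2bConv_top`;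
   the `j`-th term is `0` unless `βs[j] = γ`; then `βs ~ γ :: βs.eraseIdx j` (`List.getElem_cons_eraseIdx_perm`), so `βs.eraseIdx j ~ γs ↔ βs ~ γ :: γs`.
   So the value is `#{j : βs[j] = γ} * u γ * c` if `βs ~ γ :: γs` and `0` otherwise; `#{j : βs[j] = γ} = βs.count γ = (γ :: γs).count γ ∈ [1, length]`.
* `k2b_separate` : w.l.o.g. `γs.length ≤ γs'.length`; evaluate both sides at `(γs.map P).prod`.
-/

set_option autoImplicit false

namespace Claimed.Agent.R282

open TensorProduct

section Conv

variable (R : Type) [CommRing R] (n : ℕ)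

/-- the coproduct of the free algebra -/
noncomputable def k2bDelta :
    FreeAlgebra R (Fin n) →ₐ[R] FreeAlgebra R (Fin n) ⊗[R] FreeAlgebra R (Fin n) :=
  FreeAlgebra.lift R (fun i => fgen R n i ⊗ₜ[R] 1 + 1 ⊗ₜ[R] fgen R n i)

/-- primitive elements -/
def K2bPrim (P : FreeAlgebra R (Fin n)) : Prop := k2bDelta R n P = P ⊗ₜ[R] 1 + 1 ⊗ₜ[R] P

variable {R n}

/-- convolution of functionals -/
noncomputable def k2bConv (α β : FreeAlgebra R (Fin n) →ₗ[R] R) : FreeAlgebra R (Fin n) →ₗ[R] R :=
  LinearMap.mul' R R ∘ₗ TensorProduct.map α β ∘ₗ (k2bDelta R n).toLinearMap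

/-- translation: `(k2bTr P α) x = α (P * x)` -/
noncomputable def k2bTr (P : FreeAlgebra R (Fin n)) (α : FreeAlgebra R (Fin n) →ₗ[R] R) :
    FreeAlgebra R (Fin n) →ₗ[R] R := α ∘ₗ LinearMap.mulLeft R P

/-- the counit -/
noncomputable def k2bEps : FreeAlgebra R (Fin n) →ₗ[R] R :=
  (FreeAlgebra.algebraMapInv : FreeAlgebra R (Fin n) →ₐ[R] R).toLinearMap

/-- `α` kills the products of fewer than `s` primitive elements -/
def K2bOrd (s : ℕ) (α : FreeAlgebra R (Fin n) →ₗ[R] R) : Prop :=
  ∀ L : List (FreeAlgebra R (Fin n)), (∀ P ∈ L, K2bPrim R n P) → L.length < s → α L.prod = 0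

/-! ### L-K2B-H1 -/

theorem k2bTr_apply (P x : FreeAlgebra R (Fin n)) (α : FreeAlgebra R (Fin n) →ₗ[R] R) :
    k2bTr P α x = α (P * x) := rfl

theorem k2b_prim_gen (i : Fin n) : K2bPrim R n (fgen R n i) := by
  unfold K2bPrim k2bDelta
  conv_lhs => rw [fgen, FreeAlgebra.lift_ι_apply]

theorem k2b_prim_br {P Q : FreeAlgebra R (Fin n)} (hP : K2bPrim R n P) (hQ : K2bPrim R n Q) :
    K2bPrim R n (P * Q - Q * P) := by
  unfold K2bPrim at *
  rw [map_sub, map_mul, map_mul, hP, hQ]
  simp only [add_mul, mul_add, Algebra.TensorProduct.tmul_mul_tmul, one_mul, mul_one,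
    TensorProduct.sub_tmul, TensorProduct.tmul_sub]
  abel

theorem k2bConv_one (α β : FreeAlgebra R (Fin n) →ₗ[R] R) : k2bConv α β 1 = α 1 * β 1 := by
  show LinearMap.mul' R R (TensorProduct.map α β (k2bDelta R n 1)) = _
  rw [map_one, Algebra.TensorProduct.one_def, TensorProduct.map_tmul, LinearMap.mul'_apply]

theorem k2bConv_prim (α β : FreeAlgebra R (Fin n) →ₗ[R] R) {P : FreeAlgebra R (Fin n)}
    (hP : K2bPrim R n P) (x : FreeAlgebra R (Fin n)) :
    k2bConv α β (P * x) = k2bConv (k2bTr P α) β x + k2bConv α (k2bTr P β) x := by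
  have hl : ∀ y : FreeAlgebra R (Fin n) ⊗[R] FreeAlgebra R (Fin n),
      LinearMap.mul' R R (TensorProduct.map α β ((P ⊗ₜ[R] 1) * y))
        = LinearMap.mul' R R (TensorProduct.map (k2bTr P α) β y) := by
    intro y
    induction y using TensorProduct.induction_on with
    | zero => simp
    | tmul a b =>
      rw [Algebra.TensorProduct.tmul_mul_tmul, one_mul, TensorProduct.map_tmul,
        TensorProduct.map_tmul, k2bTr_apply]
    | add a b ha hb => rw [mul_add, map_add, map_add, ha, hb, map_add, map_add]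
  have hr : ∀ y : FreeAlgebra R (Fin n) ⊗[R] FreeAlgebra R (Fin n),
      LinearMap.mul' R R (TensorProduct.map α β ((1 ⊗ₜ[R] P) * y))
        = LinearMap.mul' R R (TensorProduct.map α (k2bTr P β) y) := by
    intro y
    induction y using TensorProduct.induction_on with
    | zero => simp
    | tmul a b =>
      rw [Algebra.TensorProduct.tmul_mul_tmul, one_mul, TensorProduct.map_tmul,
        TensorProduct.map_tmul, k2bTr_apply]
    | add a b ha hb => rw [mul_add, map_add, map_add, ha, hb, map_add, map_add]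
  show LinearMap.mul' R R (TensorProduct.map α β (k2bDelta R n (P * x))) = _
  unfold K2bPrim at hP
  rw [map_mul, hP, add_mul, map_add, map_add, hl, hr]
  rfl

theorem k2bConv_add_left (α α' β : FreeAlgebra R (Fin n) →ₗ[R] R) :
    k2bConv (α + α') β = k2bConv α β + k2bConv α' β := by
  unfold k2bConv
  rw [TensorProduct.map_add_left, LinearMap.add_comp, LinearMap.comp_add]

theorem k2bConv_add_right (α β β' : FreeAlgebra R (Fin n) →ₗ[R] R) :
    k2bConv α (β + β') = k2bConv α β + k2bConv α β' := by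
  unfold k2bConv
  rw [TensorProduct.map_add_right, LinearMap.add_comp, LinearMap.comp_add]

theorem k2bConv_smul_left (c : R) (α β : FreeAlgebra R (Fin n) →ₗ[R] R) :
    k2bConv (c • α) β = c • k2bConv α β := by
  unfold k2bConv
  rw [TensorProduct.map_smul_left, LinearMap.smul_comp, LinearMap.comp_smul]

theorem k2bConv_smul_right (c : R) (α β : FreeAlgebra R (Fin n) →ₗ[R] R) :
    k2bConv α (c • β) = c • k2bConv α β := by
  unfold k2bConv
  rw [TensorProduct.map_smul_right, LinearMap.smul_comp, LinearMap.comp_smul]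

theorem k2bConv_zero_left (β : FreeAlgebra R (Fin n) →ₗ[R] R) : k2bConv 0 β = 0 := by
  unfold k2bConv
  rw [TensorProduct.map_zero_left, LinearMap.zero_comp, LinearMap.comp_zero]

theorem k2bConv_zero_right (α : FreeAlgebra R (Fin n) →ₗ[R] R) : k2bConv α 0 = 0 := by
  unfold k2bConv
  rw [TensorProduct.map_zero_right, LinearMap.zero_comp, LinearMap.comp_zero]

theorem k2bConv_sum_left {ι : Type*} (s : Finset ι) (α : ι → FreeAlgebra R (Fin n) →ₗ[R] R)
    (β : FreeAlgebra R (Fin n) →ₗ[R] R) :
    k2bConv (∑ a ∈ s, α a) β = ∑ a ∈ s, k2bConv (α a) β := by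
  classical
  induction s using Finset.induction_on with
  | empty => simp only [Finset.sum_empty, k2bConv_zero_left]
  | insert a s ha ih => rw [Finset.sum_insert ha, Finset.sum_insert ha, k2bConv_add_left, ih]

theorem k2bConv_sum_right {ι : Type*} (s : Finset ι) (α : FreeAlgebra R (Fin n) →ₗ[R] R)
    (β : ι → FreeAlgebra R (Fin n) →ₗ[R] R) :
    k2bConv α (∑ a ∈ s, β a) = ∑ a ∈ s, k2bConv α (β a) := by
  classical
  induction s using Finset.induction_on with
  | empty => simp only [Finset.sum_empty, k2bConv_zero_right]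
  | insert a s ha ih => rw [Finset.sum_insert ha, Finset.sum_insert ha, k2bConv_add_right, ih]

theorem k2bEps_one : (k2bEps : FreeAlgebra R (Fin n) →ₗ[R] R) 1 = 1 := by
  show (FreeAlgebra.algebraMapInv : FreeAlgebra R (Fin n) →ₐ[R] R) 1 = 1
  exact map_one _

theorem k2bEps_conv (β : FreeAlgebra R (Fin n) →ₗ[R] R) : k2bConv k2bEps β = β := by
  have htr : ∀ i : Fin n, k2bTr (fgen R n i) (k2bEps : FreeAlgebra R (Fin n) →ₗ[R] R) = 0 := by
    intro i
    ext1 x
    show (FreeAlgebra.algebraMapInv : FreeAlgebra R (Fin n) →ₐ[R] R) (fgen R n i * x) = 0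
    rw [map_mul]
    have : (FreeAlgebra.algebraMapInv : FreeAlgebra R (Fin n) →ₐ[R] R) (fgen R n i) = 0 := by
      simp [FreeAlgebra.algebraMapInv, fgen]
    rw [this, zero_mul]
  refine fk_ext fun w => ?_
  induction w generalizing β with
  | nil => rw [wordMon_nil, k2bConv_one, k2bEps_one, one_mul]
  | cons i w ih =>
    rw [wordMon_cons, k2bConv_prim _ _ (k2b_prim_gen i), htr, k2bConv_zero_left, ih, k2bTr_apply]
    simp

/-! ### L-K2B-H2 -/

theorem k2bOrd_tr {s : ℕ} {α : FreeAlgebra R (Fin n) →ₗ[R] R} (h : K2bOrd s α)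
    {P : FreeAlgebra R (Fin n)} (hP : K2bPrim R n P) : K2bOrd (s - 1) (k2bTr P α) := by
  intro L hL hlen
  rw [k2bTr_apply, ← List.prod_cons]
  refine h (P :: L) ?_ ?_
  · intro Q hQ
    rcases List.mem_cons.1 hQ with rfl | hQ
    · exact hP
    · exact hL Q hQ
  · rw [List.length_cons]
    omega

theorem k2bOrd_conv {s s' : ℕ} {α β : FreeAlgebra R (Fin n) →ₗ[R] R} (hα : K2bOrd s α)
    (hβ : K2bOrd s' β) : K2bOrd (s + s') (k2bConv α β) := by
  intro L
  induction L generalizing α β s s' with
  | nil =>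
    intro _ hlen
    rw [List.prod_nil, k2bConv_one]
    rw [List.length_nil] at hlen
    rcases Nat.eq_zero_or_pos s with h0 | h0
    · have h1 : β 1 = 0 := hβ [] (by simp) (by rw [List.length_nil]; omega)
      rw [h1, mul_zero]
    · have h1 : α 1 = 0 := hα [] (by simp) (by rw [List.length_nil]; omega)
      rw [h1, zero_mul]
  | cons P L ih =>
    intro hL hlen
    rw [List.length_cons] at hlen
    have hP : K2bPrim R n P := hL P (by simp)
    have hL' : ∀ Q ∈ L, K2bPrim R n Q := fun Q hQ => hL Q (List.mem_cons_of_mem _ hQ)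
    rw [List.prod_cons, k2bConv_prim α β hP, ih (k2bOrd_tr hα hP) hβ hL' (by omega),
      ih hα (k2bOrd_tr hβ hP) hL' (by omega), add_zero]

/-- Lemma T -/
theorem k2bConv_top {r : ℕ} {α β : FreeAlgebra R (Fin n) →ₗ[R] R} (hα : K2bOrd 1 α)
    (hβ : K2bOrd r β) (L : List (FreeAlgebra R (Fin n))) (hL : ∀ P ∈ L, K2bPrim R n P)
    (hlen : L.length = r + 1) :
    k2bConv α β L.prod = ∑ j : Fin L.length, α (L.get j) * β (L.eraseIdx j).prod := by
  induction L generalizing β r with
  | nil => simp at hlen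
  | cons P L ih =>
    rw [List.length_cons] at hlen
    have hP : K2bPrim R n P := hL P (by simp)
    have hL' : ∀ Q ∈ L, K2bPrim R n Q := fun Q hQ => hL Q (List.mem_cons_of_mem _ hQ)
    have hα1 : α 1 = 0 := hα [] (by simp) (by simp)
    -- first term
    have h1 : k2bConv (k2bTr P α) β L.prod = α P * β L.prod := by
      have hκ : K2bOrd 1 (k2bTr P α - α P • k2bEps) := by
        intro L' _ hlen'
        have : L' = [] := List.length_eq_zero_iff.1 (by omega)
        subst this
        rw [List.prod_nil, LinearMap.sub_apply, LinearMap.smul_apply, k2bTr_apply, k2bEps_one, mul_one,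
          smul_eq_mul, mul_one, sub_self]
      have e : k2bTr P α = α P • k2bEps + (k2bTr P α - α P • k2bEps) := by abel
      rw [e, k2bConv_add_left, k2bConv_smul_left, k2bEps_conv, LinearMap.add_apply,
        LinearMap.smul_apply, smul_eq_mul, k2bOrd_conv hκ hβ L hL' (by omega), add_zero]
    -- second term
    have h3 : k2bConv α (k2bTr P β) L.prod
        = ∑ j : Fin L.length, α (L.get j) * (k2bTr P β) (L.eraseIdx j).prod := by
      rcases Nat.eq_zero_or_pos r with h0 | h0
      · have : L = [] := List.length_eq_zero_iff.1 (by omega)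
        subst this
        rw [List.prod_nil, k2bConv_one, hα1, zero_mul]
        simp
      · exact ih (r := r - 1) (k2bOrd_tr hβ hP) hL' (by omega)
    rw [List.prod_cons, k2bConv_prim α β hP, h1, h3]
    have e := Fin.sum_univ_succ
      (fun j : Fin (L.length + 1) => α ((P :: L).get j) * β ((P :: L).eraseIdx j).prod)
    refine Eq.trans ?_ e.symm
    rfl

/-! ### L-K2B-H3 -/

theorem k2bH_ord_one {α : FreeAlgebra R (Fin n) →ₗ[R] R} (h : α 1 = 0) : K2bOrd 1 α := by
  intro L _ hlen
  have : L = [] := List.length_eq_zero_iff.1 (by omega)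
  subst this
  exact h

theorem k2bH_ord_foldr {ι : Type} (δ : ι → FreeAlgebra R (Fin n) →ₗ[R] R) (h1 : ∀ γ, δ γ 1 = 0)
    (γs : List ι) : K2bOrd γs.length ((γs.map δ).foldr k2bConv k2bEps) := by
  induction γs with
  | nil =>
    intro L _ h
    simp at h
  | cons γ γs ih =>
    have := k2bOrd_conv (k2bH_ord_one (h1 γ)) ih
    rw [List.length_cons, add_comm]
    exact this

/-- Lemma T for a mapped list -/
theorem k2bH_top_map {ι : Type} (P : ι → FreeAlgebra R (Fin n)) (hP : ∀ β, K2bPrim R n (P β))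
    {r : ℕ} {α β : FreeAlgebra R (Fin n) →ₗ[R] R} (hα : K2bOrd 1 α) (hβ : K2bOrd r β)
    (βs : List ι) (hlen : βs.length = r + 1) :
    k2bConv α β (βs.map P).prod
      = ∑ j : Fin βs.length, α (P (βs.get j)) * β ((βs.eraseIdx j).map P).prod := by
  rw [k2bConv_top hα hβ (βs.map P) (fun Q hQ => by
    obtain ⟨b, _, rfl⟩ := List.mem_map.1 hQ
    exact hP b) (by rw [List.length_map]; exact hlen)]
  refine Fintype.sum_equiv (finCongr (by simp)) _ _ fun j => ?_
  simp [List.eraseIdx_map]

theorem k2bH_sum_count {ι : Type} [DecidableEq ι] (l : List ι) (γ : ι) (x : R) :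
    ∑ j : Fin l.length, (if l.get j = γ then x else 0) = (l.count γ : R) * x := by
  induction l with
  | nil => simp
  | cons a l ih =>
    have e := Fin.sum_univ_succ (fun j : Fin (l.length + 1) => if (a :: l).get j = γ then x else 0)
    refine Eq.trans e ?_
    have e2 : ∑ j : Fin l.length, (if (a :: l).get j.succ = γ then x else 0)
        = (l.count γ : R) * x := ih
    rw [e2]
    show (if a = γ then x else 0) + _ = _
    rw [List.count_cons]
    by_cases h : a = γ
    · simp [h]
      ring
    · simp [h]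

theorem k2b_value {ι : Type} (δ : ι → FreeAlgebra R (Fin n) →ₗ[R] R)
    (P : ι → FreeAlgebra R (Fin n)) (u : ι → R) (hP : ∀ β, K2bPrim R n (P β))
    (h1 : ∀ γ, δ γ 1 = 0) (hd : ∀ γ, δ γ (P γ) = u γ) (hd0 : ∀ γ β, β ≠ γ → δ γ (P β) = 0)
    (hu : ∀ γ, IsUnit (u γ)) (γs : List ι)
    (hf : ∀ m : ℕ, 0 < m → m ≤ γs.length → IsUnit (m : R)) :
    ∃ c : R, IsUnit c ∧ ∀ βs : List ι, βs.length ≤ γs.length →
      (βs.Perm γs → (γs.map δ).foldr k2bConv k2bEps (βs.map P).prod = c) ∧
      (¬ βs.Perm γs → (γs.map δ).foldr k2bConv k2bEps (βs.map P).prod = 0) := by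
  classical
  induction γs with
  | nil =>
    refine ⟨1, isUnit_one, fun βs hβ => ?_⟩
    have : βs = [] := List.length_eq_zero_iff.1 (by simpa using hβ)
    subst this
    exact ⟨fun _ => k2bEps_one, fun h => absurd (List.Perm.refl _) h⟩
  | cons γ γs ih =>
    obtain ⟨c, hc, hv⟩ := ih (fun m h0 hm => hf m h0 (by rw [List.length_cons]; omega))
    obtain ⟨C, hC⟩ : ∃ C, C = (γs.map δ).foldr k2bConv k2bEps := ⟨_, rfl⟩
    have hCord : K2bOrd γs.length C := by rw [hC]; exact k2bH_ord_foldr δ h1 γs
    have hδ : K2bOrd 1 (δ γ) := k2bH_ord_one (h1 γ)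
    have hfold : ((γ :: γs).map δ).foldr k2bConv k2bEps = k2bConv (δ γ) C := by rw [hC]; rfl
    rw [← hC] at hv
    refine ⟨((γ :: γs).count γ : R) * (u γ * c), ?_, fun βs hβ => ?_⟩
    · refine IsUnit.mul (hf _ ?_ ?_) ((hu γ).mul hc)
      · rw [List.count_cons_self]
        omega
      · exact List.count_le_length
    rw [hfold]
    rw [List.length_cons] at hβ
    rcases Nat.lt_or_ge βs.length (γs.length + 1) with hlt | hge
    · have h0 : k2bConv (δ γ) C (βs.map P).prod = 0 := by
        refine k2bOrd_conv hδ hCord (βs.map P) ?_ ?_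
        · intro Q hQ
          obtain ⟨b, _, rfl⟩ := List.mem_map.1 hQ
          exact hP b
        · rw [List.length_map]
          omega
      refine ⟨fun hp => ?_, fun _ => h0⟩
      have := hp.length_eq
      rw [List.length_cons] at this
      omega
    · have hlen : βs.length = γs.length + 1 := by omega
      rw [k2bH_top_map P hP hδ hCord βs hlen]
      have hterm : ∀ j : Fin βs.length, δ γ (P (βs.get j)) * C ((βs.eraseIdx j).map P).prod
          = if βs.get j = γ then u γ * C ((βs.eraseIdx j).map P).prod else 0 := by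
        intro j
        by_cases h : βs.get j = γ
        · rw [if_pos h, h, hd]
        · rw [if_neg h, hd0 γ _ h, zero_mul]
      have hperm : ∀ j : Fin βs.length, βs.get j = γ →
          ((βs.eraseIdx j).Perm γs ↔ βs.Perm (γ :: γs)) := by
        intro j h
        have h3 : (γ :: βs.eraseIdx j).Perm βs := by
          have := List.getElem_cons_eraseIdx_perm (l := βs) j.2
          rw [← h]
          exact this
        constructor
        · intro h4
          exact h3.symm.trans (h4.cons γ)
        · intro h4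
          exact (List.perm_cons γ).1 (h3.trans h4)
      have hlenE : ∀ j : Fin βs.length, (βs.eraseIdx j).length ≤ γs.length := by
        intro j
        rw [List.length_eraseIdx_of_lt j.2]
        omega
      constructor
      · intro hp
        have hall : ∀ j : Fin βs.length, δ γ (P (βs.get j)) * C ((βs.eraseIdx j).map P).prod
            = if βs.get j = γ then u γ * c else 0 := by
          intro j
          rw [hterm j]
          by_cases h : βs.get j = γ
          · rw [if_pos h, if_pos h, (hv _ (hlenE j)).1 ((hperm j h).2 hp)]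
          · rw [if_neg h, if_neg h]
        rw [Finset.sum_congr rfl fun j _ => hall j, k2bH_sum_count, hp.count_eq]
      · intro hp
        refine Finset.sum_eq_zero fun j _ => ?_
        rw [hterm j]
        by_cases h : βs.get j = γ
        · rw [if_pos h, (hv _ (hlenE j)).2 (fun h4 => hp ((hperm j h).1 h4)), mul_zero]
        · rw [if_neg h]

/-- OUTPUT of part 1 -/
theorem k2b_separate [Nontrivial R] {ι : Type} (δ : ι → FreeAlgebra R (Fin n) →ₗ[R] R)
    (P : ι → FreeAlgebra R (Fin n)) (u : ι → R) (hP : ∀ β, K2bPrim R n (P β))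
    (h1 : ∀ γ, δ γ 1 = 0) (hd : ∀ γ, δ γ (P γ) = u γ) (hd0 : ∀ γ β, β ≠ γ → δ γ (P β) = 0)
    (hu : ∀ γ, IsUnit (u γ)) (γs γs' : List ι)
    (hf : ∀ m : ℕ, 0 < m → m ≤ max γs.length γs'.length → IsUnit (m : R))
    (h : (γs.map δ).foldr k2bConv k2bEps = (γs'.map δ).foldr k2bConv k2bEps) : γs.Perm γs' := by
  obtain ⟨c, hc, hv⟩ := k2b_value δ P u hP h1 hd hd0 hu γs
    (fun m h0 hm => hf m h0 (hm.trans (le_max_left _ _)))
  obtain ⟨c', hc', hv'⟩ := k2b_value δ P u hP h1 hd hd0 hu γs'
    (fun m h0 hm => hf m h0 (hm.trans (le_max_right _ _)))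
  rcases le_total γs.length γs'.length with hle | hle
  · by_contra hne
    have e1 := (hv γs le_rfl).1 (List.Perm.refl _)
    have e2 := (hv' γs hle).2 hne
    rw [h, e2] at e1
    exact hc.ne_zero e1.symm
  · by_contra hne
    have e1 := (hv' γs' le_rfl).1 (List.Perm.refl _)
    have e2 := (hv γs' hle).2 (fun hp => hne hp.symm)
    rw [← h, e2] at e1
    exact hc'.ne_zero e1.symm

end Conv

end Claimed.Agent.R282
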