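import Claimed.Agent.R282.K2.B.Brick

/-!
# Row 282, K2, package B, part 4 (helper66): direct sums of bricks, `k2b_bricks`

* `PiRep.prod` : the product of two `PiRep`s (`V i × V' i`), `k2bm_prod_delta` : `δ (M × M') = conv (δ M) (δ M')` modulo `l` (`k2b_mult`, `k2b_emb_deltaAt`).
* `PiRep.toMod` : a `PiRep` with `V i ≃ₗ k^(d i)` as a `PiMod k n d`, with the same `δ`.
* `k2bm_iso_delta` : isomorphic `PiMod`s have the same `δ`.
* `k2bm_sum` : for every list of roots a `PiMod` with `δ = foldr conv ε`.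
Prefix `k2bm_`.
-/

set_option autoImplicit false

namespace Claimed.Agent.R282

open Module

section Prod

variable {k : Type} [Field k] {n : ℕ} {V V' : Fin n → Type} [∀ i, AddCommGroup (V i)]
  [∀ i, Module k (V i)] [∀ i, AddCommGroup (V' i)] [∀ i, Module k (V' i)]

/-- the product of two modules -/
def PiRep.prod (M : PiRep k n V) (M' : PiRep k n V') : PiRep k n (fun i => V i × V' i) where
  a := fun i j => LinearMap.prodMap (M.a i j) (M'.a i j)
  zero := fun i j h => by rw [M.zero i j h, M'.zero i j h]; ext <;> simp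
  rel := fun i => by
    have h1 := M.rel i
    have h2 := M'.rel i
    apply LinearMap.ext
    rintro ⟨v, v'⟩
    have e1 := congrArg (fun f : V i →ₗ[k] V i => f v) h1
    have e2 := congrArg (fun f : V' i →ₗ[k] V' i => f v') h2
    simp only [LinearMap.sum_apply, LinearMap.smul_apply, LinearMap.comp_apply, LinearMap.zero_apply] at e1 e2
    simp only [LinearMap.sum_apply, LinearMap.smul_apply, LinearMap.comp_apply, LinearMap.zero_apply,
      LinearMap.prodMap_apply, Prod.smul_mk]
    rw [Prod.ext_iff]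
    simp only [Prod.fst_sum, Prod.snd_sum, Prod.fst_zero, Prod.snd_zero]
    exact ⟨e1, e2⟩

theorem k2bm_emb_inl (M : PiRep k n V) (M' : PiRep k n V') :
    M.Emb (M.prod M') (fun i => LinearMap.inl k (V i) (V' i)) where
  inj := fun i => LinearMap.inl_injective
  comm := fun i j => by ext v <;> simp [PiRep.prod]

theorem k2bm_emb_inr (M : PiRep k n V) (M' : PiRep k n V') :
    M'.Emb (M.prod M') (fun i => LinearMap.inr k (V i) (V' i)) where
  inj := fun i => LinearMap.inr_injective
  comm := fun i j => by ext v <;> simp [PiRep.prod]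

theorem k2bm_isSub_top (M : PiRep k n V) : M.IsSub ⊤ := fun _ _ => le_top

theorem k2bm_prod_delta [Fintype k] [∀ i, Finite (V i)] [∀ i, Finite (V' i)] (M : PiRep k n V) (M' : PiRep k n V')
    (R : Type) [CommRing R] (l : ℕ) (hl : l.Prime) (hlR : (l : R) = 0) (hdiv : l ∣ Fintype.card k - 1) :
    (M.prod M').delta R = k2bConv (M.delta R) (M'.delta R) := by
  set A : ∀ i, Submodule k (V i × V' i) := k2bMap (fun i => LinearMap.inl k (V i) (V' i)) ⊤ with hA
  set B : ∀ i, Submodule k (V i × V' i) := k2bMap (fun i => LinearMap.inr k (V i) (V' i)) ⊤ with hB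
  have hAB : ∀ i, IsCompl (A i) (B i) := by
    intro i
    simp only [hA, hB, k2bMap, Pi.top_apply, Submodule.map_top]
    exact LinearMap.isCompl_range_inl_inr
  have hsA : (M.prod M').IsSub A := (k2b_emb_isSub (k2bm_emb_inl M M') ⊤).2 (k2bm_isSub_top M)
  have hsB : (M.prod M').IsSub B := (k2b_emb_isSub (k2bm_emb_inr M M') ⊤).2 (k2bm_isSub_top M')
  have h := k2b_mult (M.prod M') R l hl hlR hdiv hsA hsB hAB hsA hsB le_rfl le_rfl
  have htop : A ⊔ B = ⊤ := by
    funext i
    exact (hAB i).sup_eq_top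
  rw [htop, hA, hB, k2b_emb_deltaAt (k2bm_emb_inl M M'), k2b_emb_deltaAt (k2bm_emb_inr M M')] at h
  exact h

end Prod

section Transport

variable {k : Type} [Field k] {n : ℕ} {V : Fin n → Type} [∀ i, AddCommGroup (V i)]
  [∀ i, Module k (V i)] {d : Fin n → ℕ}

/-- a `PiRep` in coordinates -/
noncomputable def PiRep.toMod (M : PiRep k n V) (e : ∀ i, V i ≃ₗ[k] (Fin (d i) → k)) : PiMod k n d where
  a := fun i j => LinearMap.toMatrix' ((e j).toLinearMap ∘ₗ M.a i j ∘ₗ (e i).symm.toLinearMap)
  zero := fun i j h => by rw [M.zero i j h]; simp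
  rel := fun i => by
    have h := congrArg (fun f : V i →ₗ[k] V i =>
      LinearMap.toMatrix' ((e i).toLinearMap ∘ₗ f ∘ₗ (e i).symm.toLinearMap)) (M.rel i)
    simp only [LinearMap.zero_comp, LinearMap.comp_zero, map_zero] at h
    rw [← h]
    have e1 : (e i).toLinearMap ∘ₗ (∑ j, (if j < i then (1 : k) else -1) • M.a j i ∘ₗ M.a i j) ∘ₗ (e i).symm.toLinearMap
        = ∑ j, (if j < i then (1 : k) else -1) • (((e i).toLinearMap ∘ₗ M.a j i ∘ₗ (e j).symm.toLinearMap) ∘ₗ
            ((e j).toLinearMap ∘ₗ M.a i j ∘ₗ (e i).symm.toLinearMap)) := by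
      apply LinearMap.ext
      intro v
      simp only [LinearMap.comp_apply, LinearMap.sum_apply, LinearMap.smul_apply, map_sum, map_smul,
        LinearEquiv.coe_coe, LinearEquiv.symm_apply_apply]
    rw [e1, map_sum]
    refine Finset.sum_congr rfl fun j _ => ?_
    rw [map_smul, LinearMap.toMatrix'_comp]

theorem k2bm_toMod_emb (M : PiRep k n V) (e : ∀ i, V i ≃ₗ[k] (Fin (d i) → k)) :
    M.Emb (M.toMod e).toRep (fun i => (e i).toLinearMap) where
  inj := fun i => (e i).injective
  comm := fun i j => by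
    show Matrix.mulVecLin (LinearMap.toMatrix' ((e j).toLinearMap ∘ₗ M.a i j ∘ₗ (e i).symm.toLinearMap)) ∘ₗ _ = _
    rw [← Matrix.toLin'_apply', Matrix.toLin'_toMatrix']
    ext v
    simp

theorem k2bm_toMod_delta [Finite k] [∀ i, Finite (V i)] (M : PiRep k n V) (e : ∀ i, V i ≃ₗ[k] (Fin (d i) → k))
    (R : Type) [CommRing R] : (M.toMod e).delta R = M.delta R := by
  have h := k2b_emb_deltaAt (k2bm_toMod_emb M e) R ⊤
  have htop : k2bMap (fun i => (e i).toLinearMap) (⊤ : ∀ i, Submodule k (V i)) = ⊤ := by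
    funext i
    simp only [k2bMap, Pi.top_apply, Submodule.map_top]
    exact LinearMap.range_eq_top.2 (e i).surjective
  rw [htop] at h
  exact h

theorem k2bm_toMod_isOr (M : PiRep k n V) (e : ∀ i, V i ≃ₗ[k] (Fin (d i) → k)) (h : ∀ i j, j < i → M.a i j = 0) :
    (M.toMod e).IsOr := by
  intro i j hji
  show LinearMap.toMatrix' _ = 0
  rw [h i j hji]; simp

theorem k2bm_iso_delta [Finite k] {M M' : PiMod k n d} (h : M.Iso M') (R : Type) [CommRing R] :
    M.delta R = M'.delta R := by
  obtain ⟨g, hg, hc⟩ := h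
  have hemb : M.toRep.Emb M'.toRep (fun i => Matrix.mulVecLin (g i)) := by
    constructor
    · intro i
      exact Matrix.mulVec_injective_of_isUnit (hg i)
    · intro i j
      show Matrix.mulVecLin (M'.a i j) ∘ₗ Matrix.mulVecLin (g i) = Matrix.mulVecLin (g j) ∘ₗ Matrix.mulVecLin (M.a i j)
      rw [← Matrix.mulVecLin_mul, ← Matrix.mulVecLin_mul, hc]
  have h1 := k2b_emb_deltaAt hemb R ⊤
  have htop : k2bMap (fun i => Matrix.mulVecLin (g i)) (⊤ : ∀ i, Submodule k (Fin (d i) → k)) = ⊤ := by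
    funext i
    simp only [k2bMap, Pi.top_apply, Submodule.map_top]
    exact LinearMap.range_eq_top.2 (Matrix.mulVec_surjective_iff_isUnit.2 (hg i))
  rw [htop] at h1
  exact h1.symm

end Transport

section Final

variable {k : Type} [Field k] [Fintype k] {n : ℕ}

/-- the module with all arrows zero -/
def k2bmZero (k : Type) [Field k] (n : ℕ) (d : Fin n → ℕ) : PiMod k n d where
  a := fun _ _ => 0
  zero := fun _ _ _ => rfl
  rel := fun i => by simp

theorem k2bm_zero_delta (x : PiMod k n 0) (R : Type) [CommRing R] : x.delta R = k2bEps := by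
  apply fk_ext
  intro w
  unfold PiMod.delta PiRep.delta
  rw [PiRep.deltaAt_wordMon]
  have htb : (⊤ : ∀ i, Submodule k (Fin ((0 : Fin n → ℕ) i) → k)) = ⊥ := by
    funext i
    rw [Pi.top_apply, Pi.bot_apply, eq_comm, eq_top_iff]
    intro v _
    rw [Submodule.mem_bot]
    funext a
    exact a.elim0
  rw [htb]
  cases w with
  | nil => rw [PiRep.cnt_nil_self, wordMon_nil, k2bEps_one]; simp
  | cons i w =>
    rw [PiRep.cnt_cons]
    have hemp : x.toRep.steps i ⊥ = ∅ := by
      rw [Finset.eq_empty_iff_forall_notMem]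
      intro K hK
      have := (x.toRep.mem_steps.1 hK).2.2.2.2
      simp at this
    rw [hemp, Finset.sum_empty, wordMon_cons]
    simp [k2bEps, fgen, FreeAlgebra.algebraMapInv]

theorem k2bm_sum (R : Type) [CommRing R] (l : ℕ) (hl : l.Prime) (hlR : (l : R) = 0)
    (hdiv : l ∣ Fintype.card k - 1) (γs : List (PRD n)) : ∀ d : Fin n → ℕ, d = (γs.map PRD.dim).sum →
    ∃ x : PiMod k n d, x.IsOr ∧
      x.delta R = (γs.map (fun γ => (k2bBrick k n γ).delta R)).foldr k2bConv k2bEps := by
  induction γs with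
  | nil =>
    intro d hd
    simp only [List.map_nil, List.sum_nil] at hd
    subst hd
    exact ⟨k2bmZero k n 0, fun _ _ _ => rfl, k2bm_zero_delta _ R⟩
  | cons γ γs ih =>
    intro d hd
    obtain ⟨d', hd'⟩ : ∃ d' : Fin n → ℕ, d' = (γs.map PRD.dim).sum := ⟨_, rfl⟩
    obtain ⟨x', hor, hδ⟩ := ih d' hd'
    have hdi : ∀ i, d i = γ.dim i + d' i := by
      intro i
      rw [hd, List.map_cons, List.sum_cons, hd']; rfl
    have hfr : ∀ i, finrank k ((Fin (γ.dim i) → k) × (Fin (d' i) → k)) = finrank k (Fin (d i) → k) := by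
      intro i
      rw [Module.finrank_prod, Module.finrank_fin_fun, Module.finrank_fin_fun, Module.finrank_fin_fun, hdi]
    refine ⟨((k2bBrick k n γ).toRep.prod x'.toRep).toMod (fun i => LinearEquiv.ofFinrankEq _ _ (hfr i)),
      k2bm_toMod_isOr _ _ ?_, ?_⟩
    · intro i j hji
      show LinearMap.prodMap (Matrix.mulVecLin ((k2bBrick k n γ).a i j)) (Matrix.mulVecLin (x'.a i j)) = 0
      rw [k2bBrick_isOr γ i j hji, hor i j hji]
      ext <;> simp
    · rw [k2bm_toMod_delta, List.map_cons, List.foldr_cons, ← hδ,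
        k2bm_prod_delta (k2bBrick k n γ).toRep x'.toRep R l hl hlR hdiv]
      rfl

end Final

/-- CONTRACT B (as many isomorphism classes of representations of the oriented quiver as Kostant partitions). -/
theorem k2b_bricks (n : ℕ) (hn : 2 ≤ n) (d : Fin n → ℕ) (l : ℕ) (hl : l.Prime) (h2 : 2 < l)
    (hd : ∑ i, d i < l) (k : Type) [Field k] [Fintype k] (hdiv : l ∣ Fintype.card k - 1) :
    ∃ x : KP n d → PiMod k n d, (∀ m, (x m).IsOr) ∧ ∀ m m', (x m).Iso (x m') → m = m' := by
  classical
  have : Fact l.Prime := ⟨hl⟩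
  have hlR : ((l : ℕ) : ZMod l) = 0 := ZMod.natCast_self l
  have hsum : ∀ m : KP n d, d = (m.1.toList.map PRD.dim).sum := by
    intro m
    have h1 : (m.1.map PRD.dim).sum = d := m.2
    have h2 : ∀ s : Multiset (PRD n), (s.map PRD.dim).sum = (s.toList.map PRD.dim).sum := by
      intro s
      conv_lhs => rw [← Multiset.coe_toList s]
      rw [Multiset.map_coe, Multiset.sum_coe]
    exact h1.symm.trans (h2 m.1)
  choose x hx using fun m : KP n d => k2bm_sum (k := k) (ZMod l) l hl hlR hdiv m.1.toList d (hsum m)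
  refine ⟨x, fun m => (hx m).1, fun m m' hiso => ?_⟩
  have hδ := k2bm_iso_delta hiso (ZMod l)
  rw [(hx m).2, (hx m').2] at hδ
  have hlen : ∀ m : KP n d, m.1.toList.length < l := by
    intro m
    have := k2c_card_le m.1
    rw [m.2] at this
    rw [Multiset.length_toList]
    omega
  have hf : ∀ m₀ : ℕ, 0 < m₀ → m₀ ≤ max m.1.toList.length m'.1.toList.length → IsUnit (m₀ : ZMod l) := by
    intro m₀ h0 hm
    have hlt : m₀ < l := lt_of_le_of_lt hm (max_lt (hlen m) (hlen m'))
    rw [isUnit_iff_ne_zero, Ne, ZMod.natCast_eq_zero_iff]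
    intro hdvd
    exact absurd (Nat.le_of_dvd h0 hdvd) (not_le.2 hlt)
  have hperm := k2b_separate (fun γ => (k2bBrick k n γ).delta (ZMod l)) (k2bP (ZMod l) n)
    (fun γ => (k2bBrick k n γ).delta (ZMod l) (k2bP (ZMod l) n γ)) k2bP_prim (k2bBrick_one (ZMod l))
    (fun _ => rfl) (fun γ β h => k2bBrick_off (ZMod l) hn h) (k2bBrick_diag (ZMod l)) _ _ hf hδ
  apply Subtype.ext
  rw [← Multiset.coe_toList m.1, ← Multiset.coe_toList m'.1]
  exact Multiset.coe_eq_coe.2 hperm

end Claimed.Agent.R282
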