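import Claimed.Agent.R282.K2.A.Rad
import Claimed.Agent.R282.K2.B.Conv

/-!
# Row 282, K2, package B, part 2: chain counts are multiplicative modulo `l`  (B1 + B2 of `K2/Plan.lean`)

`M : PiRep k n V`, `k` finite, all `V i` finite; `R` a commutative ring with `(l : R) = 0`, `l` a prime dividing `|k| - 1`.
OUTPUT:
* `k2b_emb_deltaAt` : an injective morphism `φ : M' → M` does not change chain counts: `M.deltaAt (φ N') = M'.deltaAt N'`.
* `k2b_mult` : `⊤ = A ⊕ B` (submodules), `N ≤ A`, `N' ≤ B` submodules ⇒ `deltaAt (N ⊔ N') = k2bConv (deltaAt N) (deltaAt N')`.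

## Leaf L-K2B-M1 (`k2b_sum_fixed`, ~120 lines, pure combinatorics)
 Strong induction on `s.card`.  If all points of `s` are fixed: trivial.  Otherwise take `x ∈ s`, `σ x ≠ x`; the orbit
 `O = (Finset.range l).image (fun t => σ^[t] x)` has exactly `l` elements (`σ^[t] x = σ^[t'] x`, `t < t' < l` would give `σ^[t'-t] x = x` after applying
 `σ^[l-t]`; with `σ^[l] x = x` and `Nat.Coprime (t'-t) l` (Bezout / `Function.IsPeriodicPt.gcd`, `Function.minimalPeriod_dvd`: the minimal period divides the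
 prime `l`, so it is `1` or `l`) this gives `σ x = x`); `φ` is constant on `O`, so `∑_O φ = l • φ x = 0`; no point of `O` is fixed; `s \ O` is stable
 (`σ y ∈ O → y ∈ O` because `y = σ^[l-1] (σ y)`).   ALTERNATIVE: `Equiv.Perm.card_fixedPoints_modEq` on the fibres of `φ`.
## Leaf L-K2B-E (embedding invariance, ~200 lines)
 `k2bMap φ N' = fun i => (N' i).map (φ i)`.  `Submodule.map` along an injective map is injective, preserves `≤` both ways (`Submodule.map_le_map_iff_of_injective`),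
 `finrank` (`LinearEquiv.finrank_eq (Submodule.equivMapOfInjective ..)`), and `(N'.map φ_i).map (a i j) = (N'.map (a' i j)).map φ_j` (`Submodule.map_comp`, `comm`).
 `k2b_emb_step →`: `K ≤ k2bMap φ N'`, so `K j = ((K j).comap (φ j)).map (φ j)` (`Submodule.map_comap_eq_of_le`, range); take `K' = comap`.
 `k2b_emb_cnt`: induction on `w` generalizing `N'`; `Finset.sum_bij` / `Finset.sum_image` between `M'.steps i N'` and `M.steps i (k2bMap φ N')`.
 `k2b_emb_deltaAt`: `fk_ext`, `deltaAt_wordMon`, `k2bMap φ ⊥ = ⊥`.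
## Leaf L-K2B-M2 (the torus, ~200 lines, pure linear algebra)
 `k2bTor A B h ζ i = id + (ζ - 1) • (A i).projection (B i) h`.  Mathlib: `Submodule.projection_apply_of_mem_left`, `Submodule.projection_apply_of_mem_right`,
 `Submodule.projection_apply_mem`, `Submodule.projection_add_projection_eq_self` (so `v = a + b`), `Submodule.isIdempotentElem_projection`.
 `k2bTor_fixed`: for `v = a + b ∈ K`: `tor v - v = (ζ - 1) • a ∈ K` (`tor v ∈ K` by hypothesis), so `a ∈ K`, `b ∈ K`.
## Leaf L-K2B-M3 (homogeneous steps, ~350 lines)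
 Lattice facts: `(N i ⊔ N' i) ⊓ A i = N i` (`sup_inf_assoc_of_le`, `(hAB i).disjoint`), `finrank (N i ⊔ N' i) = finrank (N i) + finrank (N' i)`.
 `k2b_step_left` / `right`: `Step i N N₁ → Step i (N ⊔ N') (N₁ ⊔ N')`.
 `k2b_step_hom`: a homogeneous `K` with `Step i (N ⊔ N') K`: put `N₁ = K ⊓ A ≤ N`, `N₁' = K ⊓ B ≤ N'`; they are submodules; they agree with `N`, `N'` off `i`;
   `finrank (N₁ i) + finrank (N₁' i) + 1 = finrank (N i) + finrank (N' i)`, so exactly one of the inclusions at `i` is an equality (`Submodule.eq_of_le_of_finrank_eq`).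
 `k2b_step_sum`: take `ζ : kˣ` of order `l` (`exists_prime_orderOf_dvd_card l` for the group `kˣ`, `Fintype.card_units`), `σ K = k2bMap (tor ζ) K`.  `σ` maps `steps i (N ⊔ N')` to itself
   (`k2b_emb_step`, `k2bTor_hom`), `σ^[l] = id` (`k2bTor_mul`, `ζ^l = 1`, `k2bTor_one`), `φ ∘ σ = φ`.  `k2b_sum_fixed`; the fixed points are the homogeneous `K`; they are the
   DISJOINT union of the images of the two injective maps `N₁ ↦ N₁ ⊔ N'`, `N₁' ↦ N ⊔ N₁'` (`Finset.sum_union`, `Finset.sum_image`; recover `N₁ = (N₁ ⊔ N') ⊓ A`).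
-/

set_option autoImplicit false

namespace Claimed.Agent.R282

open Module

/-! ### L-K2B-M1 -/

theorem k2b_sum_fixed {X : Type*} {R : Type*} [CommRing R] (l : ℕ) (hl : l.Prime)
    (hlR : (l : R) = 0) (s : Finset X) (σ : X → X) (hs : ∀ x ∈ s, σ x ∈ s)
    (hσ : ∀ x ∈ s, σ^[l] x = x) (φ : X → R) (hφ : ∀ x ∈ s, φ (σ x) = φ x)
    [DecidablePred fun x => σ x = x] :
    ∑ x ∈ s, φ x = ∑ x ∈ s.filter (fun x => σ x = x), φ x := by
  classical
  induction s using Finset.strongInduction with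
  | H s ih =>
    by_cases hall : ∀ x ∈ s, σ x = x
    · rw [Finset.filter_true_of_mem hall]
    · push Not at hall
      obtain ⟨x, hx, hxne⟩ := hall
      have hiter : ∀ t, σ^[t] x ∈ s := by
        intro t
        induction t with
        | zero => exact hx
        | succ t iht => rw [Function.iterate_succ_apply']; exact hs _ iht
      have hper : Function.minimalPeriod σ x = l := by
        have hd : Function.minimalPeriod σ x ∣ l := Function.IsPeriodicPt.minimalPeriod_dvd (hσ x hx)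
        rcases (Nat.dvd_prime hl).1 hd with h1 | h1
        · exact absurd (Function.minimalPeriod_eq_one_iff_isFixedPt.1 h1) hxne
        · exact h1
      set O := (Finset.range l).image (fun t => σ^[t] x) with hO
      have hOs : O ⊆ s := by
        intro y hy
        obtain ⟨t, -, rfl⟩ := Finset.mem_image.1 hy
        exact hiter t
      have hOcard : O.card = l := by
        rw [hO, Finset.card_image_of_injOn, Finset.card_range]
        intro t ht t' ht' htt
        simp only [Finset.coe_range, Set.mem_Iio] at ht ht'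
        exact Function.iterate_injOn_Iio_minimalPeriod (by rw [hper]; exact ht) (by rw [hper]; exact ht') htt
      have hφit : ∀ t, φ (σ^[t] x) = φ x := by
        intro t
        induction t with
        | zero => rfl
        | succ t iht => rw [Function.iterate_succ_apply', hφ _ (hiter t), iht]
      have hφO : ∀ y ∈ O, φ y = φ x := by
        intro y hy
        obtain ⟨t, -, rfl⟩ := Finset.mem_image.1 hy
        exact hφit t
      have hsumO : ∑ y ∈ O, φ y = 0 := by
        rw [Finset.sum_congr rfl hφO, Finset.sum_const, hOcard, nsmul_eq_mul, hlR, zero_mul]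
      have hσO : ∀ y ∈ O, σ y ∈ O := by
        intro y hy
        obtain ⟨t, ht, rfl⟩ := Finset.mem_image.1 hy
        show σ (σ^[t] x) ∈ O
        rw [← Function.iterate_succ_apply' σ t x]
        rcases Nat.lt_or_ge (t + 1) l with h1 | h1
        · exact Finset.mem_image.2 ⟨t + 1, Finset.mem_range.2 h1, rfl⟩
        · have : t.succ = l := le_antisymm (Finset.mem_range.1 ht) h1
          rw [this, hσ x hx]
          exact Finset.mem_image.2 ⟨0, Finset.mem_range.2 hl.pos, rfl⟩
      have hnofix : ∀ y ∈ O, σ y ≠ y := by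
        intro y hy hfix
        obtain ⟨t, ht, rfl⟩ := Finset.mem_image.1 hy
        -- apply σ^[l - t]
        have h1 : σ^[l - t] (σ (σ^[t] x)) = σ^[l - t] (σ^[t] x) := congrArg _ hfix
        rw [← Function.iterate_succ_apply, ← Function.iterate_add_apply, ← Function.iterate_add_apply] at h1
        have ht' : t < l := Finset.mem_range.1 ht
        rw [show l - t + t = l by omega, show (l - t).succ + t = l + 1 by omega, Function.iterate_succ_apply',
          hσ x hx] at h1
        exact hxne h1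
      have hstab : ∀ y ∈ s \ O, σ y ∈ s \ O := by
        intro y hy
        rw [Finset.mem_sdiff] at hy ⊢
        refine ⟨hs y hy.1, fun hmem => hy.2 ?_⟩
        -- y = σ^[l-1] (σ y)
        have hit : ∀ t, σ^[t] (σ y) ∈ O := by
          intro t
          induction t with
          | zero => exact hmem
          | succ t iht => rw [Function.iterate_succ_apply']; exact hσO _ iht
        have := hit (l - 1)
        rw [← Function.iterate_succ_apply, show (l - 1).succ = l by have := hl.pos; omega, hσ y hy.1] at this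
        exact this
      have hlt : s \ O ⊂ s := by
        refine Finset.ssubset_iff_subset_ne.2 ⟨Finset.sdiff_subset, fun h => ?_⟩
        have hxO : x ∈ O := Finset.mem_image.2 ⟨0, Finset.mem_range.2 hl.pos, rfl⟩
        have : x ∈ s \ O := by rw [h]; exact hx
        exact (Finset.mem_sdiff.1 this).2 hxO
      have ih' := ih (s \ O) hlt hstab (fun y hy => hσ y (Finset.mem_sdiff.1 hy).1)
        (fun y hy => hφ y (Finset.mem_sdiff.1 hy).1)
      rw [← Finset.sum_sdiff hOs, hsumO, add_zero, ih']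
      apply Finset.sum_congr _ fun _ _ => rfl
      ext y
      simp only [Finset.mem_filter, Finset.mem_sdiff]
      constructor
      · rintro ⟨⟨h1, -⟩, h2⟩; exact ⟨h1, h2⟩
      · rintro ⟨h1, h2⟩; exact ⟨⟨h1, fun hO' => hnofix y hO' h2⟩, h2⟩

/-! ### basic facts on `deltaAt` (no sorry) -/

section Basic

variable {k : Type} [Field k] {n : ℕ} {V : Fin n → Type} [∀ i, AddCommGroup (V i)]
  [∀ i, Module k (V i)] [∀ i, Finite (V i)] (M : PiRep k n V) (R : Type) [CommRing R]

theorem PiRep.deltaAt_fgen_mul (N : ∀ i, Submodule k (V i)) (i : Fin n)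
    (x : FreeAlgebra R (Fin n)) :
    M.deltaAt R N (fgen R n i * x) = ∑ N₁ ∈ M.steps i N, M.deltaAt R N₁ x := by
  simp only [PiRep.deltaAt_apply, map_mul, PiRep.rho_fgen, Module.End.mul_apply, PiRep.opT_apply]

theorem PiRep.deltaAt_one_bot : M.deltaAt R ⊥ 1 = 1 := by
  rw [← wordMon_nil, PiRep.deltaAt_wordMon, PiRep.cnt_nil_self]; simp

theorem PiRep.deltaAt_one_ne {N : ∀ i, Submodule k (V i)} (h : N ≠ ⊥) : M.deltaAt R N 1 = 0 := by
  rw [← wordMon_nil, PiRep.deltaAt_wordMon, PiRep.cnt_nil_ne M h]; simp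

theorem k2bTr_deltaAt (N : ∀ i, Submodule k (V i)) (i : Fin n) :
    k2bTr (fgen R n i) (M.deltaAt R N) = ∑ N₁ ∈ M.steps i N, M.deltaAt R N₁ := by
  ext x
  rw [k2bTr_apply, PiRep.deltaAt_fgen_mul, LinearMap.sum_apply]

end Basic

/-! ### L-K2B-E -/

section Emb

variable {k : Type} [Field k] {n : ℕ} {V V' : Fin n → Type} [∀ i, AddCommGroup (V i)]
  [∀ i, Module k (V i)] [∀ i, AddCommGroup (V' i)] [∀ i, Module k (V' i)]

/-- `φ` is an injective morphism `M' → M` -/
structure PiRep.Emb (M' : PiRep k n V') (M : PiRep k n V) (φ : ∀ i, V' i →ₗ[k] V i) : Prop where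
  inj : ∀ i, Function.Injective (φ i)
  comm : ∀ i j, M.a i j ∘ₗ φ i = φ j ∘ₗ M'.a i j

/-- the image of a family -/
def k2bMap (φ : ∀ i, V' i →ₗ[k] V i) (N' : ∀ i, Submodule k (V' i)) : ∀ i, Submodule k (V i) :=
  fun i => (N' i).map (φ i)

variable {M' : PiRep k n V'} {M : PiRep k n V} {φ : ∀ i, V' i →ₗ[k] V i}

theorem k2bMap_injective (h : M'.Emb M φ) : Function.Injective (k2bMap φ) := by
  intro N N' hNN
  funext i
  exact Submodule.map_injective_of_injective (h.inj i) (congrFun hNN i)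

theorem k2bMap_bot : k2bMap φ ⊥ = ⊥ := by
  funext i; simp [k2bMap]

theorem k2bMap_le_iff (h : M'.Emb M φ) (N N' : ∀ i, Submodule k (V' i)) : k2bMap φ N ≤ k2bMap φ N' ↔ N ≤ N' := by
  constructor
  · intro hh i
    exact (Submodule.map_le_map_iff_of_injective (h.inj i) _ _).1 (hh i)
  · intro hh i
    exact Submodule.map_mono (hh i)

theorem k2bMap_finrank (h : M'.Emb M φ) (N : ∀ i, Submodule k (V' i)) (i : Fin n) :
    finrank k (k2bMap φ N i) = finrank k (N i) :=
  (LinearEquiv.finrank_eq (Submodule.equivMapOfInjective (φ i) (h.inj i) (N i))).symm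

theorem k2b_emb_isSub (h : M'.Emb M φ) (N' : ∀ i, Submodule k (V' i)) :
    M.IsSub (k2bMap φ N') ↔ M'.IsSub N' := by
  unfold PiRep.IsSub k2bMap
  refine forall_congr' fun i => forall_congr' fun j => ?_
  rw [← Submodule.map_comp, h.comm i j, Submodule.map_comp]
  exact Submodule.map_le_map_iff_of_injective (h.inj j) _ _

theorem k2b_emb_step (h : M'.Emb M φ) (i : Fin n) (N' : ∀ i, Submodule k (V' i))
    (K : ∀ i, Submodule k (V i)) :
    M.Step i (k2bMap φ N') K ↔ ∃ K', K = k2bMap φ K' ∧ M'.Step i N' K' := by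
  constructor
  · rintro ⟨h1, h2, h3, h4, h5⟩
    have hK : K = k2bMap φ (fun j => (K j).comap (φ j)) := by
      funext j
      unfold k2bMap
      rw [Submodule.map_comap_eq_of_le]
      exact le_trans (h3 j) (LinearMap.map_le_range)
    refine ⟨fun j => (K j).comap (φ j), hK, ?_⟩
    rw [hK] at h2 h3 h4 h5
    refine ⟨(k2b_emb_isSub h _).1 h1, (k2b_emb_isSub h _).1 h2, (k2bMap_le_iff h _ _).1 h3, fun j hj => ?_, ?_⟩
    · exact Submodule.map_injective_of_injective (h.inj j) (h4 j hj)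
    · rw [k2bMap_finrank h, k2bMap_finrank h] at h5
      exact h5
  · rintro ⟨K', rfl, h1, h2, h3, h4, h5⟩
    refine ⟨(k2b_emb_isSub h _).2 h1, (k2b_emb_isSub h _).2 h2, (k2bMap_le_iff h _ _).2 h3, fun j hj => ?_, ?_⟩
    · unfold k2bMap; rw [h4 j hj]
    · rw [k2bMap_finrank h, k2bMap_finrank h]; exact h5

theorem k2b_emb_cnt [∀ i, Finite (V i)] [∀ i, Finite (V' i)] (h : M'.Emb M φ)
    (w : List (Fin n)) (N' N'' : ∀ i, Submodule k (V' i)) :
    M.cnt w (k2bMap φ N') (k2bMap φ N'') = M'.cnt w N' N'' := by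
  classical
  induction w generalizing N' with
  | nil =>
    by_cases hN : N' = N''
    · subst hN; rw [PiRep.cnt_nil_self, PiRep.cnt_nil_self]
    · rw [PiRep.cnt_nil_ne _ hN, PiRep.cnt_nil_ne _ (fun hh => hN (k2bMap_injective h hh))]
  | cons i w ih =>
    rw [PiRep.cnt_cons, PiRep.cnt_cons]
    have himg : M.steps i (k2bMap φ N') = (M'.steps i N').image (k2bMap φ) := by
      ext K
      rw [PiRep.mem_steps, Finset.mem_image, k2b_emb_step h]
      constructor
      · rintro ⟨K', rfl, hK'⟩; exact ⟨K', M'.mem_steps.2 hK', rfl⟩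
      · rintro ⟨K', hK', rfl⟩; exact ⟨K', rfl, M'.mem_steps.1 hK'⟩
    rw [himg, Finset.sum_image (fun a _ b _ hab => k2bMap_injective h hab)]
    exact Finset.sum_congr rfl fun K' _ => ih K'

/-- OUTPUT: embedding invariance -/
theorem k2b_emb_deltaAt [∀ i, Finite (V i)] [∀ i, Finite (V' i)] (h : M'.Emb M φ) (R : Type)
    [CommRing R] (N' : ∀ i, Submodule k (V' i)) :
    M.deltaAt R (k2bMap φ N') = M'.deltaAt R N' := by
  apply fk_ext
  intro w
  rw [PiRep.deltaAt_wordMon, PiRep.deltaAt_wordMon, ← k2bMap_bot (φ := φ), k2b_emb_cnt h]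

end Emb

/-! ### L-K2B-M2 -/

section Torus

variable {k : Type} [Field k] {n : ℕ} {V : Fin n → Type} [∀ i, AddCommGroup (V i)]
  [∀ i, Module k (V i)] (A B : ∀ i, Submodule k (V i)) (hAB : ∀ i, IsCompl (A i) (B i))

/-- multiplication by `ζ` on `A`, the identity on `B` -/
noncomputable def k2bTor (ζ : k) (i : Fin n) : V i →ₗ[k] V i :=
  LinearMap.id + (ζ - 1) • (A i).projection (B i) (hAB i)

theorem k2bTor_left (ζ : k) (i : Fin n) {v : V i} (hv : v ∈ A i) :
    k2bTor A B hAB ζ i v = ζ • v := by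
  simp only [k2bTor, LinearMap.add_apply, LinearMap.id_apply, LinearMap.smul_apply,
    Submodule.projection_apply_of_mem_left (hAB i) hv]
  rw [sub_smul, one_smul]
  abel

theorem k2bTor_right (ζ : k) (i : Fin n) {v : V i} (hv : v ∈ B i) :
    k2bTor A B hAB ζ i v = v := by
  simp only [k2bTor, LinearMap.add_apply, LinearMap.id_apply, LinearMap.smul_apply,
    Submodule.projection_apply_of_mem_right (hAB i) hv, smul_zero, add_zero]

include hAB in
/-- decomposition -/
theorem k2bTor_decomp (i : Fin n) (v : V i) : ∃ a ∈ A i, ∃ b ∈ B i, v = a + b :=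
  ⟨_, Submodule.projection_apply_mem (hAB i) v, _, Submodule.projection_apply_mem (hAB i).symm v,
    (Submodule.projection_add_projection_eq_self (hAB i) v).symm⟩

theorem k2bTor_add (ζ : k) (i : Fin n) {a b : V i} (ha : a ∈ A i) (hb : b ∈ B i) :
    k2bTor A B hAB ζ i (a + b) = ζ • a + b := by
  rw [map_add, k2bTor_left A B hAB ζ i ha, k2bTor_right A B hAB ζ i hb]

theorem k2bTor_one (i : Fin n) : k2bTor A B hAB 1 i = LinearMap.id := by
  simp [k2bTor]

theorem k2bTor_mul (ζ ζ' : k) (i : Fin n) :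
    k2bTor A B hAB ζ i ∘ₗ k2bTor A B hAB ζ' i = k2bTor A B hAB (ζ * ζ') i := by
  ext v
  obtain ⟨a, ha, b, hb, rfl⟩ := k2bTor_decomp A B hAB i v
  rw [LinearMap.comp_apply, k2bTor_add A B hAB ζ' i ha hb, k2bTor_add A B hAB ζ i ((A i).smul_mem _ ha) hb,
    k2bTor_add A B hAB _ i ha hb, smul_smul]

theorem k2bTor_emb (M : PiRep k n V) (hA : M.IsSub A) (hB : M.IsSub B) {ζ : k} (hζ : ζ ≠ 0) :
    M.Emb M (k2bTor A B hAB ζ) := by
  constructor
  · intro i
    have h1 : k2bTor A B hAB ζ⁻¹ i ∘ₗ k2bTor A B hAB ζ i = LinearMap.id := by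
      rw [k2bTor_mul, inv_mul_cancel₀ hζ, k2bTor_one]
    exact Function.LeftInverse.injective (g := k2bTor A B hAB ζ⁻¹ i) fun v =>
      congrArg (fun f : V i →ₗ[k] V i => f v) h1
  · intro i j
    ext v
    obtain ⟨a, ha, b, hb, rfl⟩ := k2bTor_decomp A B hAB i v
    have ha' : M.a i j a ∈ A j := hA i j (Submodule.mem_map_of_mem ha)
    have hb' : M.a i j b ∈ B j := hB i j (Submodule.mem_map_of_mem hb)
    rw [LinearMap.comp_apply, LinearMap.comp_apply, k2bTor_add A B hAB ζ i ha hb, map_add, map_add, map_smul,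
      k2bTor_add A B hAB ζ j ha' hb']

/-- homogeneous families are fixed -/
theorem k2bTor_hom {ζ : k} (hζ : ζ ≠ 0) {N N' : ∀ i, Submodule k (V i)} (hN : N ≤ A)
    (hN' : N' ≤ B) : k2bMap (k2bTor A B hAB ζ) (N ⊔ N') = N ⊔ N' := by
  funext i
  simp only [k2bMap, Pi.sup_apply, Submodule.map_sup]
  congr 1
  · apply le_antisymm
    · rintro _ ⟨v, hv, rfl⟩
      rw [k2bTor_left A B hAB ζ i (hN i hv)]
      exact (N i).smul_mem _ hv
    · intro v hv
      refine ⟨ζ⁻¹ • v, (N i).smul_mem _ hv, ?_⟩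
      rw [k2bTor_left A B hAB ζ i ((A i).smul_mem _ (hN i hv)), smul_smul, mul_inv_cancel₀ hζ, one_smul]
  · apply le_antisymm
    · rintro _ ⟨v, hv, rfl⟩
      rw [k2bTor_right A B hAB ζ i (hN' i hv)]
      exact hv
    · intro v hv
      exact ⟨v, hv, k2bTor_right A B hAB ζ i (hN' i hv)⟩

/-- fixed families are homogeneous -/
theorem k2bTor_fixed {ζ : k} (hζ : ζ ≠ 1) {K : ∀ i, Submodule k (V i)}
    (hK : k2bMap (k2bTor A B hAB ζ) K = K) (i : Fin n) : K i = (K i ⊓ A i) ⊔ (K i ⊓ B i) := by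
  apply le_antisymm
  · intro v hv
    obtain ⟨a, ha, b, hb, rfl⟩ := k2bTor_decomp A B hAB i v
    have h1 : k2bTor A B hAB ζ i (a + b) ∈ K i := by
      have : k2bTor A B hAB ζ i (a + b) ∈ k2bMap (k2bTor A B hAB ζ) K i := Submodule.mem_map_of_mem hv
      rwa [hK] at this
    rw [k2bTor_add A B hAB ζ i ha hb] at h1
    have h2 : (ζ - 1) • a ∈ K i := by
      have := (K i).sub_mem h1 hv
      have e : ζ • a + b - (a + b) = (ζ - 1) • a := by rw [sub_smul, one_smul]; abel
      rwa [e] at this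
    have haK : a ∈ K i := by
      have := (K i).smul_mem (ζ - 1)⁻¹ h2
      rwa [smul_smul, inv_mul_cancel₀ (sub_ne_zero.2 hζ), one_smul] at this
    have hbK : b ∈ K i := by
      have := (K i).sub_mem hv haK
      rwa [add_sub_cancel_left] at this
    exact Submodule.add_mem_sup ⟨haK, ha⟩ ⟨hbK, hb⟩
  · exact sup_le inf_le_left inf_le_left

end Torus

/-! ### L-K2B-M3 -/

section Step

variable {k : Type} [Field k] {n : ℕ} {V : Fin n → Type} [∀ i, AddCommGroup (V i)]
  [∀ i, Module k (V i)] [∀ i, Module.Finite k (V i)] {M : PiRep k n V}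
  {A B : ∀ i, Submodule k (V i)} (hA : M.IsSub A) (hB : M.IsSub B)
  (hAB : ∀ i, IsCompl (A i) (B i)) {N N' : ∀ i, Submodule k (V i)} (hN : M.IsSub N)
  (hN' : M.IsSub N') (hNA : N ≤ A) (hNB : N' ≤ B)

include hAB hNA hNB in
theorem k2b_sup_inf_left : (N ⊔ N') ⊓ A = N := by
  funext i
  simp only [Pi.inf_apply, Pi.sup_apply]
  rw [sup_inf_assoc_of_le _ (hNA i)]
  have : N' i ⊓ A i = ⊥ := by
    rw [eq_bot_iff]
    calc N' i ⊓ A i ≤ B i ⊓ A i := inf_le_inf_right _ (hNB i)
      _ = ⊥ := (hAB i).symm.inf_eq_bot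
  rw [this, sup_bot_eq]

include hAB hNA hNB in
theorem k2b_sup_inf_right : (N ⊔ N') ⊓ B = N' := by
  funext i
  simp only [Pi.inf_apply, Pi.sup_apply]
  rw [sup_comm, sup_inf_assoc_of_le _ (hNB i)]
  have : N i ⊓ B i = ⊥ := by
    rw [eq_bot_iff]
    calc N i ⊓ B i ≤ A i ⊓ B i := inf_le_inf_right _ (hNA i)
      _ = ⊥ := (hAB i).inf_eq_bot
  rw [this, sup_bot_eq]

include hAB hNA hNB in
theorem k2b_finrank_sup (i : Fin n) : finrank k ↥(N i ⊔ N' i) = finrank k (N i) + finrank k (N' i) := by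
  have h := Submodule.finrank_sup_add_finrank_inf_eq (N i) (N' i)
  have : N i ⊓ N' i = ⊥ := by
    rw [eq_bot_iff]
    calc N i ⊓ N' i ≤ A i ⊓ B i := inf_le_inf (hNA i) (hNB i)
      _ = ⊥ := (hAB i).inf_eq_bot
  rw [this, finrank_bot, add_zero] at h
  exact h

omit [∀ i, Module.Finite k (V i)] in
include hN hN' in
theorem k2b_isSub_sup : M.IsSub (N ⊔ N') := by
  intro i j
  simp only [Pi.sup_apply, Submodule.map_sup]
  exact sup_le_sup (hN i j) (hN' i j)

include hAB hN' hNA hNB in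
theorem k2b_step_left {i : Fin n} {N₁ : ∀ i, Submodule k (V i)} (h : M.Step i N N₁) :
    M.Step i (N ⊔ N') (N₁ ⊔ N') := by
  obtain ⟨h1, h2, h3, h4, h5⟩ := h
  refine ⟨k2b_isSub_sup h1 hN', k2b_isSub_sup h2 hN', sup_le_sup_right h3 _, fun j hj => ?_, ?_⟩
  · simp only [Pi.sup_apply, h4 j hj]
  · simp only [Pi.sup_apply]
    rw [k2b_finrank_sup hAB (h3.trans hNA) hNB, k2b_finrank_sup hAB hNA hNB]
    omega

include hAB hN hNA hNB in
theorem k2b_step_right {i : Fin n} {N₁' : ∀ i, Submodule k (V i)} (h : M.Step i N' N₁') :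
    M.Step i (N ⊔ N') (N ⊔ N₁') := by
  obtain ⟨h1, h2, h3, h4, h5⟩ := h
  refine ⟨k2b_isSub_sup hN h1, k2b_isSub_sup hN h2, sup_le_sup_left h3 _, fun j hj => ?_, ?_⟩
  · simp only [Pi.sup_apply, h4 j hj]
  · simp only [Pi.sup_apply]
    rw [k2b_finrank_sup hAB hNA (h3.trans hNB), k2b_finrank_sup hAB hNA hNB]
    omega

omit [∀ i, Module.Finite k (V i)] in
theorem k2b_isSub_inf {K A : ∀ i, Submodule k (V i)} (hK : M.IsSub K) (hA : M.IsSub A) : M.IsSub (K ⊓ A) := by
  intro i j
  simp only [Pi.inf_apply]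
  exact le_inf (le_trans (Submodule.map_mono inf_le_left) (hK i j)) (le_trans (Submodule.map_mono inf_le_right) (hA i j))

include hA hB hAB hN hN' hNA hNB in
theorem k2b_step_hom {i : Fin n} {K : ∀ i, Submodule k (V i)} (h : M.Step i (N ⊔ N') K)
    (hK : ∀ j, K j = (K j ⊓ A j) ⊔ (K j ⊓ B j)) :
    (∃ N₁, M.Step i N N₁ ∧ K = N₁ ⊔ N') ∨ (∃ N₁', M.Step i N' N₁' ∧ K = N ⊔ N₁') := by
  obtain ⟨h1, h2, h3, h4, h5⟩ := h
  have hKA : K ⊓ A ≤ N := by
    calc K ⊓ A ≤ (N ⊔ N') ⊓ A := inf_le_inf_right _ h3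
      _ = N := k2b_sup_inf_left hAB hNA hNB
  have hKB : K ⊓ B ≤ N' := by
    calc K ⊓ B ≤ (N ⊔ N') ⊓ B := inf_le_inf_right _ h3
      _ = N' := k2b_sup_inf_right hAB hNA hNB
  have hKeq : K = (K ⊓ A) ⊔ (K ⊓ B) := funext hK
  have hoffA : ∀ j, j ≠ i → (K ⊓ A) j = N j := by
    intro j hj
    have := congrFun (k2b_sup_inf_left hAB hNA hNB) j
    simp only [Pi.inf_apply, Pi.sup_apply] at this ⊢
    rw [h4 j hj]; exact this
  have hoffB : ∀ j, j ≠ i → (K ⊓ B) j = N' j := by
    intro j hj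
    have := congrFun (k2b_sup_inf_right hAB hNA hNB) j
    simp only [Pi.inf_apply, Pi.sup_apply] at this ⊢
    rw [h4 j hj]; exact this
  have hfr : finrank k ↥((K ⊓ A) i) + finrank k ↥((K ⊓ B) i) + 1 = finrank k (N i) + finrank k (N' i) := by
    have e1 := k2b_finrank_sup hAB (N := K ⊓ A) (N' := K ⊓ B) inf_le_right inf_le_right i
    have e2 := k2b_finrank_sup hAB hNA hNB i
    have e3 : (K ⊓ A) i ⊔ (K ⊓ B) i = K i := (hK i).symm
    rw [e3] at e1
    simp only [Pi.sup_apply] at h5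
    omega
  have hleA : finrank k ↥((K ⊓ A) i) ≤ finrank k (N i) := Submodule.finrank_mono (hKA i)
  have hleB : finrank k ↥((K ⊓ B) i) ≤ finrank k (N' i) := Submodule.finrank_mono (hKB i)
  have hsA : M.IsSub (K ⊓ A) := k2b_isSub_inf h2 hA
  have hsB : M.IsSub (K ⊓ B) := k2b_isSub_inf h2 hB
  by_cases hc : finrank k ↥((K ⊓ B) i) = finrank k (N' i)
  · left
    have hB' : K ⊓ B = N' := by
      funext j
      by_cases hj : j = i
      · subst hj; exact Submodule.eq_of_le_of_finrank_eq (hKB j) hc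
      · exact hoffB j hj
    refine ⟨K ⊓ A, ⟨hN, hsA, hKA, hoffA, by omega⟩, ?_⟩
    rw [← hB']; exact hKeq
  · right
    have hA' : K ⊓ A = N := by
      funext j
      by_cases hj : j = i
      · subst hj; exact Submodule.eq_of_le_of_finrank_eq (hKA j) (by omega)
      · exact hoffA j hj
    refine ⟨K ⊓ B, ⟨hN', hsB, hKB, hoffB, by omega⟩, ?_⟩
    rw [← hA']; exact hKeq

end Step

section Mult

variable {k : Type} [Field k] [Fintype k] {n : ℕ} {V : Fin n → Type} [∀ i, AddCommGroup (V i)]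
  [∀ i, Module k (V i)] [∀ i, Finite (V i)] (M : PiRep k n V) (R : Type) [CommRing R]
  (l : ℕ) (hl : l.Prime) (hlR : (l : R) = 0) (hdiv : l ∣ Fintype.card k - 1)
  {A B : ∀ i, Submodule k (V i)} (hA : M.IsSub A) (hB : M.IsSub B)
  (hAB : ∀ i, IsCompl (A i) (B i))

include hl hlR hdiv hA hB hAB in
/-- one step, modulo `l` -/
theorem k2b_step_sum {N N' : ∀ i, Submodule k (V i)} (hN : M.IsSub N) (hN' : M.IsSub N')
    (hNA : N ≤ A) (hNB : N' ≤ B) (i : Fin n) (φ : (∀ i, Submodule k (V i)) → R)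
    (hφ : ∀ g : ∀ i, V i →ₗ[k] V i, M.Emb M g → ∀ K, φ (k2bMap g K) = φ K) :
    ∑ K ∈ M.steps i (N ⊔ N'), φ K =
      ∑ N₁ ∈ M.steps i N, φ (N₁ ⊔ N') + ∑ N₁' ∈ M.steps i N', φ (N ⊔ N₁') := by
  classical
  have : Fact l.Prime := ⟨hl⟩
  obtain ⟨ζ, hζ⟩ := exists_prime_orderOf_dvd_card (G := kˣ) l (by rw [Fintype.card_units]; exact hdiv)
  have hζ0 : (ζ : k) ≠ 0 := ζ.ne_zero
  have hζ1 : (ζ : k) ≠ 1 := by
    intro h
    have : ζ = 1 := Units.ext h
    rw [this, orderOf_one] at hζ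
    exact hl.one_lt.ne hζ
  have hζl : (ζ : k) ^ l = 1 := by
    have := pow_orderOf_eq_one ζ
    rw [hζ] at this
    have h2 := congrArg Units.val this
    rwa [Units.val_pow_eq_pow_val, Units.val_one] at h2
  have hemb := k2bTor_emb A B hAB M hA hB hζ0
  set σ : (∀ i, Submodule k (V i)) → (∀ i, Submodule k (V i)) := k2bMap (k2bTor A B hAB (ζ : k)) with hσdef
  have hiter : ∀ (t : ℕ) (K : ∀ i, Submodule k (V i)), σ^[t] K = k2bMap (k2bTor A B hAB ((ζ : k) ^ t)) K := by
    intro t K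
    induction t with
    | zero =>
      funext j
      simp [k2bMap, k2bTor_one]
    | succ t ih =>
      rw [Function.iterate_succ_apply', ih]
      funext j
      simp only [hσdef, k2bMap]
      rw [← Submodule.map_comp, k2bTor_mul, pow_succ']
  have hfix := k2b_sum_fixed (R := R) l hl hlR (M.steps i (N ⊔ N')) σ
    (fun K hK => by
      rw [PiRep.mem_steps] at hK ⊢
      have := (k2b_emb_step hemb i (N ⊔ N') (σ K)).2 ⟨K, rfl, hK⟩
      rwa [k2bTor_hom A B hAB hζ0 hNA hNB] at this)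
    (fun K _ => by
      rw [hiter, hζl]
      funext j
      simp [k2bMap, k2bTor_one])
    φ (fun K _ => hφ _ hemb K)
  rw [hfix]
  have hset : (M.steps i (N ⊔ N')).filter (fun K => σ K = K)
      = (M.steps i N).image (fun N₁ => N₁ ⊔ N') ∪ (M.steps i N').image (fun N₁' => N ⊔ N₁') := by
    ext K
    simp only [Finset.mem_filter, Finset.mem_union, Finset.mem_image, PiRep.mem_steps]
    constructor
    · rintro ⟨hst, hfx⟩
      rcases k2b_step_hom hA hB hAB hN hN' hNA hNB hst (k2bTor_fixed A B hAB hζ1 hfx) with ⟨N₁, h1, rfl⟩ | ⟨N₁, h1, rfl⟩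
      · exact Or.inl ⟨N₁, h1, rfl⟩
      · exact Or.inr ⟨N₁, h1, rfl⟩
    · rintro (⟨N₁, h1, rfl⟩ | ⟨N₁, h1, rfl⟩)
      · exact ⟨k2b_step_left hAB hN' hNA hNB h1, k2bTor_hom A B hAB hζ0 (h1.2.2.1.trans hNA) hNB⟩
      · exact ⟨k2b_step_right hAB hN hNA hNB h1, k2bTor_hom A B hAB hζ0 hNA (h1.2.2.1.trans hNB)⟩
  rw [hset, Finset.sum_union, Finset.sum_image, Finset.sum_image]
  · intro N₁ h1 N₂ h2 h12
    have h1' := (M.mem_steps.1 h1).2.2.1
    have h2' := (M.mem_steps.1 h2).2.2.1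
    simp only at h12
    rw [← k2b_sup_inf_right hAB hNA (h1'.trans hNB), ← k2b_sup_inf_right hAB hNA (h2'.trans hNB), h12]
  · intro N₁ h1 N₂ h2 h12
    have h1' := (M.mem_steps.1 h1).2.2.1
    have h2' := (M.mem_steps.1 h2).2.2.1
    simp only at h12
    rw [← k2b_sup_inf_left hAB (h1'.trans hNA) hNB, ← k2b_sup_inf_left hAB (h2'.trans hNA) hNB, h12]
  · rw [Finset.disjoint_left]
    intro K hK1 hK2
    obtain ⟨N₁, h1, rfl⟩ := Finset.mem_image.1 hK1
    obtain ⟨N₂, h2, h12⟩ := Finset.mem_image.1 hK2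
    have h1' := M.mem_steps.1 h1
    have h2' := M.mem_steps.1 h2
    have e : N = N₁ := by
      rw [← k2b_sup_inf_left hAB hNA (h2'.2.2.1.trans hNB), ← k2b_sup_inf_left hAB (h1'.2.2.1.trans hNA) hNB, h12]
    have := h1'.2.2.2.2
    rw [← e] at this
    omega

include hl hlR hdiv hA hB hAB in
/-- OUTPUT: multiplicativity modulo `l` -/
theorem k2b_mult {N N' : ∀ i, Submodule k (V i)} (hN : M.IsSub N) (hN' : M.IsSub N')
    (hNA : N ≤ A) (hNB : N' ≤ B) :
    M.deltaAt R (N ⊔ N') = k2bConv (M.deltaAt R N) (M.deltaAt R N') := by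
  apply fk_ext
  intro w
  induction w generalizing N N' with
  | nil =>
    rw [wordMon_nil, k2bConv_one]
    by_cases h1 : N = ⊥
    · by_cases h2 : N' = ⊥
      · subst h1 h2
        rw [sup_bot_eq, PiRep.deltaAt_one_bot, mul_one]
      · subst h1
        rw [bot_sup_eq, PiRep.deltaAt_one_ne M R h2, mul_zero]
    · have h3 : N ⊔ N' ≠ ⊥ := fun h => h1 (by rw [eq_bot_iff, ← h]; exact le_sup_left)
      rw [PiRep.deltaAt_one_ne M R h1, PiRep.deltaAt_one_ne M R h3, zero_mul]
  | cons i w ih =>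
    rw [wordMon_cons, k2bConv_prim _ _ (k2b_prim_gen i), k2bTr_deltaAt, k2bTr_deltaAt,
      k2bConv_sum_left, k2bConv_sum_right, LinearMap.sum_apply, LinearMap.sum_apply,
      PiRep.deltaAt_fgen_mul,
      k2b_step_sum M R l hl hlR hdiv hA hB hAB hN hN' hNA hNB i
        (fun K => M.deltaAt R K (wordMon R n w))
        (fun g hg K => by rw [k2b_emb_deltaAt hg])]
    congr 1
    · apply Finset.sum_congr rfl
      intro N₁ h₁
      have hs := M.mem_steps.1 h₁
      exact ih hs.2.1 hN' (hs.2.2.1.trans hNA) hNB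
    · apply Finset.sum_congr rfl
      intro N₁ h₁
      have hs := M.mem_steps.1 h₁
      exact ih hN hs.2.1 hNA (hs.2.2.1.trans hNB)

end Mult

end Claimed.Agent.R282
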